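import Vale.Agent.P167.H718.Par6
import Vale.Agent.P167.H398.Q.Mac
import Vale.Agent.P167.H167.Q.EDefs
import Vale.Agent.P167.BR.Intf

/-!
# P167, general `q`, block Q-LAM: literal statements

`wI`: the weights of the parity image (charge `0`); `TL`, `TT`: the products of the weights of the pieces
in small boxes around the special points; `LE`: what is used about the geometry of a domain and the
weights; `Uni`: unit polygons with boundary conditions (base at a convex corner for the free and the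
wired ones); `Ea`: the event at the junction; `Kind`: the types of the special points.
-/

namespace Vale.Agent.P167.H718.Lam

open Finset Filter Topology Vale.Agent.P167.BR Vale.Agent.P167.FK
open Vale.Agent.P167.E6 (IsPolygon Encloses dir)
open Vale.Agent.P167.QX (wB lo hi)
open Vale.Agent.P167.H365.NQ (XW TW)
open Vale.Agent.P167.H871 (Bd)
open Vale.Agent.P167.H825 (enl pdir)
open Vale.Agent.P167.H825.Q (Bc)
open Vale.Agent.P167.H167.Q (Reg)
open Vale.Agent.P167.FKA (Loc Ind)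

/-! ### weights and local products -/

/-- The weight of the piece `A` in the parity image of the functional without charges. -/
noncomputable def wI {N : ℕ} (θ β : ℝ) (q : ZMod N → ℤ × ℤ) (D : Finset (ℤ × ℤ)) (k : ℕ)
    (τ : ℕ → ℤ) (A : Finset Ed) : ℝ :=
  wB θ β q D k A (rc θ β τ k (hi q A) - rc θ β τ k (lo q A))

/-- The piece `A` is inside of the box. -/
def Ins (x : ℤ × ℤ) (r : ℕ) (A : Finset Ed) : Prop := ∀ e ∈ A, hdv e ∈ Bq x r

/-- The diameter of `A` is at least `a`. -/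
def Big (a : ℝ) (A : Finset Ed) : Prop := ∃ e ∈ A, ∃ e' ∈ A, a ≤ (nm (hdv e - hdv e') : ℝ)

open Classical in
/-- The product of the weights of the pieces inside of the box. -/
noncomputable def TL (w : Finset Ed → ℝ) (D : Finset (ℤ × ℤ)) (x : ℤ × ℤ) (r : ℕ) (ω : Cfg) : ℝ :=
  ∏ A ∈ (pcs ω D).filter (Ins x r), w A

/-- The product over the points of `P`. -/
noncomputable def TT (w : Finset Ed → ℝ) (D P : Finset (ℤ × ℤ)) (r : ℕ) (ω : Cfg) : ℝ :=
  ∏ x ∈ P, TL w D x r ω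

/-- **The local structure**: `P`: special points with weights `≥ c₀`, `B`: special points with weights
`0` or `1`; the pieces with weight `≠ 1` which are in no small box are large. -/
structure LE (D : Finset (ℤ × ℤ)) (η : Cfg) (w : Finset Ed → ℝ) (P B : Finset (ℤ × ℤ)) (L W : ℕ)
    (κ c₀ A₀ R : ℝ) : Prop where
  reg : Reg (L * W : ℕ) D η
  cen : ∃ x₀ : ℤ × ℤ, ∀ v ∈ D, (nm (v - x₀) : ℝ) ≤ R * W
  mem : ∀ x ∈ P ∪ B, x ∈ sites D
  sep : ∀ x ∈ P ∪ B, ∀ y ∈ P ∪ B, x ≠ y → ((2 * (L * W) : ℕ) : ℤ) < nm (x - y)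
  bdd : ∀ ω, ∀ A ∈ pcs ω D, |w A| ≤ A₀
  far : ∀ ω, ∀ A ∈ pcs ω D, w A ≠ 1 → ∀ r : ℕ, 1 ≤ r → r ≤ W → (∀ x ∈ P ∪ B, ¬ Ins x r A) →
    Big (κ * r) A
  loc : ∀ ω, ∀ A ∈ pcs ω D, ∀ x ∈ P, Ins x W A → c₀ ≤ w A
  zer : ∀ ω, ∀ A ∈ pcs ω D, ∀ x ∈ B, Ins x W A → w A = 0 ∨ w A = 1

/-! ### unit polygons -/

/-- A unit polygon, boundary conditions, base at the position `tp` of the side `0`. -/
structure Uni where
  l : ℕ
  p : ZMod l → ℤ × ℤ
  S : Finset (ℤ × ℤ)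
  bc : Bc
  tp : ℝ

namespace Uni

/-- The boundary conditions: free and wired: base at a convex corner; Dobrushin: base and junction on
sides with the direction `0`. -/
def BOk (U : Uni) : Prop :=
  match U.bc with
  | .dob ia ta => 0 < U.tp ∧ U.tp < 1 ∧ 0 < ia ∧ ia < U.l ∧ 0 < ta ∧ ta < 1 ∧
      pdir U.p 0 = 0 ∧ pdir U.p ia = 0
  | _ => U.tp = 0 ∧ pdir U.p 0 = pdir U.p (U.l - 1) + 1

/-- Admissible data. -/
structure Ok (U : Uni) : Prop where
  poly : IsPolygon U.p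
  enc : Encloses U.p U.S
  bok : U.BOk

/-- The two marked points are different. -/
def IsDob (U : Uni) : Prop := match U.bc with
  | .dob _ _ => True
  | _ => False

/-- The base position. -/
noncomputable def t (U : Uni) (n : ℕ) : ℕ := ⌊U.tp * n⌋₊

/-- The polygon. -/
noncomputable def q (U : Uni) (n : ℕ) : ZMod (U.l * n) → ℤ × ℤ := Enl.qN U.p n (U.t n)

/-- The domain. -/
noncomputable def D (U : Uni) (n : ℕ) : Finset (ℤ × ℤ) := enl U.S n

/-- The first wired step. -/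
noncomputable def k (U : Uni) (n : ℕ) : ℕ := U.bc.ka U.l n (U.t n)

/-- The translated polygon. -/
noncomputable def qa (U : Uni) (n : ℕ) (a : ℤ × ℤ) : ZMod (U.l * n) → ℤ × ℤ := fun i => U.q n i + a

/-- The translated domain. -/
noncomputable def Da (U : Uni) (n : ℕ) (a : ℤ × ℤ) : Finset (ℤ × ℤ) := (U.D n).image (· + a)

/-- The weights of the parity image in the translated domain. -/
noncomputable def w (U : Uni) (θ β : ℝ) (n : ℕ) (a : ℤ × ℤ) (τ : ℕ → ℤ) : Finset Ed → ℝ :=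
  wI θ β (U.qa n a) (U.Da n a) (U.k n) τ

/-- The junction. -/
noncomputable def jn (U : Uni) (n : ℕ) (a : ℤ × ℤ) : ℤ × ℤ := U.qa n a (U.k n : ZMod (U.l * n))

open Classical in
/-- The special points: `some i`: corner `p i`; `none`: the base (Dobrushin). -/
noncomputable def sp (U : Uni) : Finset (Option ℕ) :=
  ((range U.l).filter fun i => pdir U.p (i + U.l - 1) ≠ pdir U.p i).image some ∪
    if U.IsDob then {none} else ∅

/-- The position of a special point. -/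
noncomputable def pt (U : Uni) (n : ℕ) (a : ℤ × ℤ) : Option ℕ → ℤ × ℤ
  | some i => (n : ℤ) • U.p i + a
  | none => U.qa n a 0

/-- The special points with positive weights. -/
noncomputable def P (U : Uni) (n : ℕ) (a : ℤ × ℤ) : Finset (ℤ × ℤ) := U.sp.image (U.pt n a)

open Classical in
/-- The special points with weights `0` or `1`. -/
noncomputable def B (U : Uni) (n : ℕ) (a : ℤ × ℤ) : Finset (ℤ × ℤ) :=
  if U.IsDob then {U.jn n a} else ∅

/-- The colour of the forbidden path at the junction `x`. -/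
def fc (x : ℤ × ℤ) : Bool := decide (Odd (x.1 + x.2))

/-- **The event at the junction**: no path of the colour which is not the one of the junction, in the
box of radius `r`, from the free to the wired arc. -/
def Ea (U : Uni) (n : ℕ) (a : ℤ × ℤ) (r : ℕ) (ω : Cfg) : Prop :=
  U.IsDob → ¬ Jn (fc (U.jn n a)) (U.Da n a ∩ Bq (U.jn n a) r) ω
    {z | ∃ j : ℕ, j ≤ U.k n ∧ U.qa n a (j : ZMod (U.l * n)) = z}
    {z | ∃ j : ℕ, U.k n ≤ j ∧ j < U.l * n ∧ U.qa n a (j : ZMod (U.l * n)) = z}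

open Classical in
/-- The indicator of the event at the junction. -/
noncomputable def iE (U : Uni) (n : ℕ) (a : ℤ × ℤ) (r : ℕ) (ω : Cfg) : ℝ :=
  if U.Ea n a r ω then 1 else 0

/-- The standing hypotheses on `n`, the translation, the lifted directions and the outside. -/
structure St (U : Uni) (n : ℕ) (a : ℤ × ℤ) (τ : ℕ → ℤ) (η : Cfg) : Prop where
  tr : a = 0 ∨ ∃ s : Fin 4, a = dir s
  bd : Bd (U.D n : Set (ℤ × ℤ)) (U.l * n) (fun i => U.q n (i : ZMod (U.l * n))) τ 1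
  dob : Dob η (U.Da n a) (U.qa n a) (U.k n)

/-- The types of the special points: direction of the incoming and of the outgoing side, on the free
arc, base. -/
structure Kind where
  din : Fin 4
  dout : Fin 4
  fr : Bool
  bs : Bool
  deriving DecidableEq

/-- The corner `i` is on the free arc. -/
def onFr (U : Uni) (i : ℕ) : Bool := match U.bc with
  | .free => true
  | .wired => false
  | .dob ia _ => decide (1 ≤ i ∧ i ≤ ia)

open Classical in
/-- The type of a special point. -/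
noncomputable def kind (U : Uni) : Option ℕ → Kind
  | some i => ⟨pdir U.p (i + U.l - 1), pdir U.p i, U.onFr i, decide (i = 0 ∧ ¬ U.IsDob)⟩
  | none => ⟨0, 0, true, true⟩

end Uni

/-! ### the literal statements -/

/-- **[LG]** (601): the local structure of the enlargements. -/
def LG (θ β : ℝ) (U : Uni) : Prop :=
  ∃ κ c₀ A₀ : ℝ, 0 < κ ∧ 0 < c₀ ∧ 1 ≤ A₀ ∧ ∀ L : ℕ, ∃ ρ₀ : ℝ, 0 < ρ₀ ∧ ∀ ρ : ℝ, 0 < ρ → ρ ≤ ρ₀ →
    ∃ R : ℝ, 0 ≤ R ∧ ∀ᶠ n : ℕ in atTop, ∀ (a : ℤ × ℤ) (τ : ℕ → ℤ) (η : Cfg), U.St n a τ η →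
      ∃ η' : Cfg, U.St n a τ η' ∧
        LE (U.Da n a) η' (U.w θ β n a τ) (U.P n a) (U.B n a) L ⌊ρ * n⌋₊ κ c₀ A₀ R

/-- **[LP]** (318): all the weights are nonnegative; the positive ones are at least `c`; if `U` is free
or wired, they are positive. -/
def LP (θ β : ℝ) (U : Uni) : Prop :=
  ∃ c : ℝ, 0 < c ∧ ∀ᶠ n : ℕ in atTop, ∀ (a : ℤ × ℤ) (τ : ℕ → ℤ) (η : Cfg), U.St n a τ η →
    ∀ ω, ∀ A ∈ pcs ω (U.Da n a),
      c ≤ U.w θ β n a τ A ∨ (U.IsDob ∧ U.w θ β n a τ A = 0)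

/-- **[LK]** (975): comparison of the local products of special points of the same type. -/
def LK (θ β : ℝ) : Prop :=
  ∀ (U U' : Uni), U.Ok → U'.Ok → ∀ j ∈ U.sp, ∀ j' ∈ U'.sp, U.kind j = U'.kind j' →
    ∃ ρ₀ : ℝ, 0 < ρ₀ ∧ ∀ ρ : ℝ, 0 < ρ → ρ ≤ ρ₀ → ∃ C : ℝ, 0 < C ∧ ∀ᶠ n : ℕ in atTop,
    ∀ (a a' : ℤ × ℤ) (τ τ' : ℕ → ℤ) (η η' : Cfg), U.St n a τ η → U'.St n a' τ' η' →
    (Even ((U.pt n a j).1 + (U.pt n a j).2) ↔ Even ((U'.pt n a' j').1 + (U'.pt n a' j').2)) →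
    Ex (2 * Real.cos θ) (U.Da n a) η (TL (U.w θ β n a τ) (U.Da n a) (U.pt n a j) ⌊ρ * n⌋₊) ≤
      C * Ex (2 * Real.cos θ) (U'.Da n a') η'
        (TL (U'.w θ β n a' τ') (U'.Da n a') (U'.pt n a' j') ⌊ρ * n⌋₊)

/-- **[LK], junction** (975): comparison of the events at the junctions. -/
def LKJ (θ : ℝ) : Prop :=
  ∀ (U U' : Uni), U.Ok → U'.Ok → U.IsDob → U'.IsDob →
    ∃ ρ₀ : ℝ, 0 < ρ₀ ∧ ∀ ρ : ℝ, 0 < ρ → ρ ≤ ρ₀ → ∃ C : ℝ, 0 < C ∧ ∀ᶠ n : ℕ in atTop,
    ∀ (a a' : ℤ × ℤ) (τ τ' : ℕ → ℤ) (η η' : Cfg), U.St n a τ η → U'.St n a' τ' η' →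
    (Even ((U.jn n a).1 + (U.jn n a).2) ↔ Even ((U'.jn n a').1 + (U'.jn n a').2)) →
    Ex (2 * Real.cos θ) (U.Da n a) η (U.iE n a ⌊ρ * n⌋₊) ≤
      C * Ex (2 * Real.cos θ) (U'.Da n a') η' (U'.iE n a' ⌊ρ * n⌋₊)

/-- **[LD1]** (685): the event at the junction is local, decreasing in the radius, and contains the
configurations without pieces of weight `0` near the junction. -/
def LD1 (θ β : ℝ) (U : Uni) : Prop :=
  ∃ ρ₀ : ℝ, 0 < ρ₀ ∧ ∀ᶠ n : ℕ in atTop, ∀ (a : ℤ × ℤ) (τ : ℕ → ℤ) (η : Cfg), U.St n a τ η →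
    ∀ (r : ℕ) (ω : Cfg), (r : ℝ) ≤ ρ₀ * n →
      (∀ A ∈ pcs ω (U.Da n a), Ins (U.jn n a) (r + 1) A → U.w θ β n a τ A ≠ 0) → U.Ea n a r ω

/-- **[LD2]** (685): for the Dobrushin squares: on the event at the junction there is a local part `H` of
the configurations without weights `0` which has positive conditional probability. `F` reads small boxes
around the special points (not around the junction). -/
def LD2 (θ β : ℝ) (U : Uni) : Prop :=
  ∃ ρ₀ : ℝ, 0 < ρ₀ ∧ ∀ ρ ρ' : ℝ, 0 < ρ' → ρ' ≤ ρ → ρ ≤ ρ₀ → ∃ c : ℝ, 0 < c ∧ ∀ᶠ n : ℕ in atTop,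
    ∀ (a : ℤ × ℤ) (τ : ℕ → ℤ) (η : Cfg), U.St n a τ η → ∃ H : Cfg → ℝ,
      (∀ ω, 0 ≤ H ω ∧ H ω ≤ 1) ∧
      (∀ ω, H ω ≠ 0 → U.Ea n a ⌊ρ' * n⌋₊ ω → ∀ A ∈ pcs ω (U.Da n a), U.w θ β n a τ A ≠ 0) ∧
      ∀ F : Cfg → ℝ, (∀ ω, 0 ≤ F ω) →
        Loc (U.Da n a ∩ (U.P n a).biUnion fun x => Bq x ⌊ρ * n⌋₊) F →
        c * Ex (2 * Real.cos θ) (U.Da n a) η (fun ω => F ω * U.iE n a ⌊ρ' * n⌋₊ ω) ≤
          Ex (2 * Real.cos θ) (U.Da n a) η (fun ω => F ω * U.iE n a ⌊ρ' * n⌋₊ ω * H ω)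

/-- **[LamT]** (718, assembly): the expectation of the local products is at most `C * lam`. -/
def LamT (θ β : ℝ) (U : Uni) : Prop :=
  ∃ ρ₀ : ℝ, 0 < ρ₀ ∧ ∀ ρ : ℝ, 0 < ρ → ρ ≤ ρ₀ → ∀ ρ' : ℝ, 0 < ρ' → ρ' ≤ ρ →
    ∃ C : ℝ, 0 < C ∧ ∀ᶠ n : ℕ in atTop,
    ∀ (s : Fin 4) (τ : ℕ → ℤ) (η : Cfg), U.St n (dir s) τ η →
      Ex (2 * Real.cos θ) (U.Da n (dir s)) η (fun ω =>
        TT (U.w θ β n (dir s) τ) (U.Da n (dir s)) (U.P n (dir s)) ⌊ρ * n⌋₊ ω *
          U.iE n (dir s) ⌊ρ' * n⌋₊ ω) ≤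
      C * lam θ β (U.q n) (U.D n) (U.k n) (dir s)

end Vale.Agent.P167.H718.Lam
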