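import Vale.Agent.P167.H718.Lam.Cut
import Vale.Agent.P167.H718.Lam.Defs

/-!
# P167, general `q`, block Q-LAM: the unit polygons as polygons at the scale `n` (literal statement)
-/

namespace Vale.Agent.P167.H718.Lam

open Finset Filter Topology Vale.Agent.P167.BR Vale.Agent.P167.FK

/-- The enlargement of a unit polygon as a `Pg`. -/
noncomputable def Uni.pg (U : Uni) (n : ℕ) (a : ℤ × ℤ) (τ : ℕ → ℤ) (η : Cfg) : Pg :=
  ⟨U.l * n, U.qa n a, U.Da n a, U.k n, τ, η⟩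

open Classical in
/-- **[BR]** The enlargements of admissible unit polygons are regular; their special indices are the
special points. -/
def BrU (θ : ℝ) (U : Uni) : Prop :=
  ∃ σ R : ℝ, 0 < σ ∧ ∀ᶠ n : ℕ in atTop, ∀ (a : ℤ × ℤ) (τ : ℕ → ℤ) (η : Cfg), U.St n a τ η →
    ∃ η' : Cfg, U.St n a τ η' ∧ (U.pg n a τ η').Ok n σ R ∧ (U.pg n a τ η').Ty θ ∧
      (U.IsDob → Top.vec (τ (U.k n)) = (1, 0)) ∧
      ∀ f : ℤ × ℤ → ℝ, ∏ j ∈ (U.pg n a τ η').sp, f (U.qa n a (j : ZMod (U.l * n))) =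
        (∏ x ∈ U.sp, f (U.pt n a x)) * if U.IsDob then f (U.jn n a) else 1

end Vale.Agent.P167.H718.Lam
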