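import Vale.Agent.P167.H601.LG.Sep
import Vale.Agent.P167.H975.LkH
import Vale.Agent.P167.H318.LC.Poly
import Vale.Agent.P167.H365.Q.Defs
import Vale.Agent.P167.H718.Par6
import Vale.Agent.P167.H167.Q.EDefs

/-!
# P167, general `q`, block Q-LAM: the cut of `LamT` into literal statements

`Pg`: a polygon with boundary conditions, lifted directions and outside configuration. `Pg.Ok n σ R`:
it is regular at the scale `n`. `eT j r`: the expectation of the local product at the special index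
`j`. `eX`: the expectation of the product of all the weights of the parity image.
`U_S`: upper bound of `eX`; `L_pos`, `L_dob`, `L_flat`: lower bounds for the reference polygons.
-/

namespace Vale.Agent.P167.H718.Lam

open Finset Filter Topology Vale.Agent.P167.BR Vale.Agent.P167.FK
open Vale.Agent.P167.E6 (IsPolygon Encloses dir)
open Vale.Agent.P167.H365.NQ (XW TW)
open Vale.Agent.P167.H871 (Bd)
open Vale.Agent.P167.H825 (enl)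
open Vale.Agent.P167.H167.Q (Reg)
open Vale.Agent.P167.H192.Q (SRSW)
open Vale.Agent.P167.H601.LG (GeoN Spe SepL Typ wJ)
open Vale.Agent.P167.H975 (TX)
open Vale.Agent.P167.H318.LC (sqP sqS lP lS)

/-- A polygon, its domain, the first wired step, the lifted directions, the outside configuration. -/
structure Pg where
  N : ℕ
  q : ZMod N → ℤ × ℤ
  D : Finset (ℤ × ℤ)
  k : ℕ
  τ : ℕ → ℤ
  η : Cfg

namespace Pg

/-- The polygon is regular at the scale `n`. -/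
structure Ok (X : Pg) (n : ℕ) (σ R : ℝ) : Prop where
  geo : GeoN n X.N X.q X.τ
  poly : IsPolygon X.q
  enc : Encloses X.q X.D
  bd : Bd (X.D : Set (ℤ × ℤ)) X.N (fun i => X.q (i : ZMod X.N)) X.τ 1
  sep : SepL ⌊σ * n⌋₊ X.N X.τ X.k
  kle : X.k ≤ X.N
  dob : Dob X.η X.D X.q X.k
  reg : Reg ⌊σ * n⌋ X.D X.η
  dia : ∃ x₀ : ℤ × ℤ, ∀ v ∈ X.D, (nm (v - x₀) : ℝ) ≤ R * n
  len : (X.N : ℝ) ≤ R * n

/-- The weights of the parity image, gauge 2. -/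
noncomputable def w (X : Pg) (θ : ℝ) : Finset Ed → ℝ := wJ θ ((θ - Real.pi) / 2) X.q X.D X.k X.τ

/-- Expectations. -/
noncomputable def E (X : Pg) (θ : ℝ) (F : Cfg → ℝ) : ℝ := Ex (2 * Real.cos θ) X.D X.η F

/-- The local product at the index `j`. -/
noncomputable def T (X : Pg) (θ : ℝ) (j : ℕ) (r : ℤ) (ω : Cfg) : ℝ :=
  TX (X.w θ) X.D (X.q (j : ZMod X.N)) r ω

open Classical in
/-- The special indices. -/
noncomputable def sp (X : Pg) : Finset ℕ := (range X.N).filter (Spe X.τ X.k)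

/-- The expectation of the local product. -/
noncomputable def eT (X : Pg) (θ : ℝ) (j : ℕ) (r : ℤ) : ℝ := X.E θ (X.T θ j r)

/-- The expectation of the product of all the weights. -/
noncomputable def eX (X : Pg) (θ : ℝ) : ℝ := X.E θ (XW X.D (X.w θ))

/-- Types of polygons: `0`: free or wired, base at a convex corner; Dobrushin, base and junction in
the interior of sides. -/
def Ty (X : Pg) (θ : ℝ) : Prop := Typ X.N X.k X.τ ((θ - Real.pi) / 2) θ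

/-- Free or wired, the base is in the interior of a side and its colour is the one of the outside. -/
structure Flat (X : Pg) : Prop where
  fw : X.k = 0 ∨ X.k = X.N
  flat : X.τ X.N = X.τ (X.N - 1)
  odd : X.k = X.N → ¬ Even ((X.q 0).1 + (X.q 0).2)
  even : X.k = 0 → Even ((X.q 0).1 + (X.q 0).2)

end Pg

/-- The enlargement of the unit polygon `p` around `S₀`, base at the position `s`, translated. -/
noncomputable def enP {l : ℕ} (p : ZMod l → ℤ × ℤ) (S₀ : Finset (ℤ × ℤ)) (n s : ℕ) (a : ℤ × ℤ)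
    (k : ℕ) (τ : ℕ → ℤ) (η : Cfg) : Pg :=
  ⟨l * n, fun i => Enl.qN p n s i + a, (enl S₀ n).image (· + a), k, τ, η⟩

/-- **[U]** The upper bound (direction `0` at the junction). -/
def U_S (θ : ℝ) : Prop := ∀ σ R : ℝ, 0 < σ → ∃ ρ₀ : ℝ, 0 < ρ₀ ∧ ∀ ρ : ℝ, 0 < ρ → ρ ≤ ρ₀ →
  ∃ (C : ℝ) (n₀ : ℕ), 0 < C ∧ ∀ n : ℕ, n₀ ≤ n → ∀ X : Pg, X.Ok n σ R → X.Ty θ →
    (0 < X.k → X.k < X.N → Top.vec (X.τ X.k) = (1, 0)) →
    |X.eX θ| ≤ C * ∏ j ∈ X.sp, X.eT θ j ⌊ρ * n⌋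

/-- **[L-POS]** The lower bound if all the weights are positive: free or wired, base at a convex
corner, `-1 ≤ K ≤ 3`. -/
def L_pos (θ : ℝ) : Prop := ∀ σ R : ℝ, 0 < σ → ∃ ρ₀ : ℝ, 0 < ρ₀ ∧ ∀ ρ : ℝ, 0 < ρ → ρ ≤ ρ₀ →
  ∃ (c : ℝ) (n₀ : ℕ), 0 < c ∧ ∀ n : ℕ, n₀ ≤ n → ∀ X : Pg, X.Ok n σ R → X.Ty θ →
    (X.k = 0 ∨ X.k = X.N) → (∀ x y : ℕ, x ≤ y → y < X.N → -1 ≤ X.τ y - X.τ x ∧ X.τ y - X.τ x ≤ 3) →
    c * ∏ j ∈ X.sp, X.eT θ j ⌊ρ * n⌋ ≤ X.eX θ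

/-- **[L-FLAT]** The lower bound for the square, free or wired, the base is in the interior of the
side with the direction `0`, its colour is the one of the outside. -/
def L_flat (θ : ℝ) : Prop := ∀ σ R : ℝ, 0 < σ → ∃ ρ₀ : ℝ, 0 < ρ₀ ∧ ∀ ρ : ℝ, 0 < ρ → ρ ≤ ρ₀ →
  ∃ (c : ℝ) (n₀ : ℕ), 0 < c ∧ ∀ n : ℕ, n₀ ≤ n → ∀ (s : ℕ) (a : ℤ × ℤ) (k : ℕ) (τ : ℕ → ℤ) (η : Cfg),
    0 < s → s < n → (enP (sqP 0) sqS n s a k τ η).Ok n σ R →
    (enP (sqP 0) sqS n s a k τ η).Flat →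
    c * ∏ j ∈ (enP (sqP 0) sqS n s a k τ η).sp, (enP (sqP 0) sqS n s a k τ η).eT θ j ⌊ρ * n⌋ ≤
      (enP (sqP 0) sqS n s a k τ η).eX θ

/-- The `2 × 2` square with unit sides; `0`: the first two sides are the south side; `1`: the side
`0` is the second one of the south side. -/
def dP (i : Fin 2) : ZMod 8 → ℤ × ℤ := fun (x : Fin 8) =>
  (![(0, 0), (1, 0), (2, 0), (2, 1), (2, 2), (1, 2), (0, 2), (0, 1)] : Fin 8 → ℤ × ℤ)
    (x + ![0, 1] i)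

/-- Its squares. -/
def dS : Finset (ℤ × ℤ) := {(0, 0), (1, 0), (0, 1), (1, 1)}

/-- **[L-DOB]** The lower bound for the Dobrushin squares: base and junction on the south side, the
free arc has no corner (`i = 0`, junction on the side `1`) or four corners (`i = 1`, junction on the
side `7`). -/
def L_dob (θ : ℝ) : Prop := ∀ σ R : ℝ, 0 < σ → ∃ ρ₀ : ℝ, 0 < ρ₀ ∧ ∀ ρ : ℝ, 0 < ρ → ρ ≤ ρ₀ →
  ∃ (c : ℝ) (n₀ : ℕ), 0 < c ∧ ∀ n : ℕ, n₀ ≤ n → ∀ (i : Fin 2) (s s' : ℕ) (a : ℤ × ℤ) (k : ℕ)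
    (τ : ℕ → ℤ) (η : Cfg), 0 < s → s < n → 0 < s' → s' < n → k + s = (![1, 7] i) * n + s' →
    (enP (dP i) dS n s a k τ η).Ok n σ R →
    c * ∏ j ∈ (enP (dP i) dS n s a k τ η).sp, (enP (dP i) dS n s a k τ η).eT θ j ⌊ρ * n⌋ ≤
      (enP (dP i) dS n s a k τ η).eX θ

/-- The product of the local products at the indices of `Z`. -/
noncomputable def Pg.TZ (X : Pg) (θ : ℝ) (Z : Finset ℕ) (r : ℤ) (ω : Cfg) : ℝ :=
  ∏ j ∈ Z, X.T θ j r ω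

/-- **[L-GEN]** The lower bound, general form. `P`: special indices with positive local weights, `Z`:
special indices with local products `0` or `1` (junction, flat base), radius `ε n`; `H`: a part of the
configurations on which there is no weight `0`, with positive conditional probability. -/
def L_gen (θ : ℝ) : Prop := ∀ σ R c₁ : ℝ, 0 < σ → 0 < c₁ → ∃ ρ₀ : ℝ, 0 < ρ₀ ∧ ρ₀ ≤ σ / 100 ∧
  ρ₀ ≤ 1 / 100 ∧ ∀ ρ : ℝ, 0 < ρ → ρ ≤ ρ₀ → ∃ ε : ℝ, 0 < ε ∧ ε ≤ ρ ∧ ∀ c₂ : ℝ, 0 < c₂ →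
  ∃ (c : ℝ) (n₀ : ℕ), 0 < c ∧ ∀ n : ℕ, n₀ ≤ n → ∀ X : Pg, X.Ok n σ R → ∀ P Z : Finset ℕ,
    Disjoint P Z → P ∪ Z = X.sp →
    (∀ j ∈ P, ∀ ω, ∀ A ∈ pcs ω X.D, (∀ e ∈ A, hdv e ∈ Bq (X.q (j : ZMod X.N)) ⌊ρ₀ * n⌋) →
      c₁ ≤ X.w θ A) →
    (∀ j ∈ Z, ∀ ω, ∀ r : ℤ, 1 ≤ r → r ≤ ⌊ρ₀ * n⌋ → X.T θ j r ω = 0 ∨ X.T θ j r ω = 1) →
    (∀ ω, 0 ≤ XW X.D (X.w θ) ω) →
    ∀ H : Cfg → ℝ, (∀ ω, 0 ≤ H ω ∧ H ω ≤ 1) →
      (∀ ω, H ω ≠ 0 → X.TZ θ Z ⌊ε * n⌋ ω ≠ 0 → ∀ A ∈ pcs ω X.D, c₁ ≤ X.w θ A) →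
      (∀ F : Cfg → ℝ, (∀ ω, 0 ≤ F ω) →
        FKA.Loc (X.D ∩ P.biUnion fun j => Bq (X.q (j : ZMod X.N)) ⌊ε * n⌋) F →
        c₂ * X.E θ (fun ω => F ω * X.TZ θ Z ⌊ε * n⌋ ω) ≤
          X.E θ (fun ω => F ω * X.TZ θ Z ⌊ε * n⌋ ω * H ω)) →
      c * ∏ j ∈ X.sp, X.eT θ j ⌊ρ * n⌋ ≤ X.eX θ

/-- **[BASE]** The partition functions with the staggered phases do not depend on the base, up to a
factor `2 cos θ` (free or wired). -/
def BaseQ (θ : ℝ) : Prop := ∀ (N : ℕ) (q q' : ZMod N → ℤ × ℤ) (D : Finset (ℤ × ℤ)) (k : ℕ),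
  (k = 0 ∨ k = N) → IsPolygon q → IsPolygon q' → Encloses q D → Encloses q' D →
    QX.ZQ θ q D (QX.stag θ ((θ - Real.pi) / 2) q k) 0 ≤
      2 * Real.cos θ * QX.ZQ θ q' D (QX.stag θ ((θ - Real.pi) / 2) q' k) 0

end Vale.Agent.P167.H718.Lam
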