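import Vale.Agent.P167.H718.Lam.Cut

/-!
# P167, general `q`, block Q-LAM: the value of the parity image

The expectation of the product of the weights `wJ` in `D + a` is `lam`; the one in `D` is `1 / lam`.
-/

namespace Vale.Agent.P167.H718.Lam

open Finset Filter Topology Vale.Agent.P167.BR Vale.Agent.P167.FK
open Vale.Agent.P167.E6 (IsPolygon Encloses dir)
open Vale.Agent.P167.H365.NQ (XW TW)
open Vale.Agent.P167.H871 (Bd)
open Vale.Agent.P167.H601.LG (wJ)
open Vale.Agent.P167.QX (wB lo hi)

variable {D : Finset (ℤ × ℤ)} {ω η η₁ : Cfg} {A : Finset Ed} {θ β : ℝ} {n k : ℕ}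
  {q : ZMod n → ℤ × ℤ} {u : ℕ → ℤ} {a : ℤ × ℤ}

theorem mass_lp {ρ : ℕ → ℝ} (hq : IsPolygon q) (hD : Encloses q D) (hA : A ∈ pcs ω D)
    (hl : IsLp D A) : mass D (q 0) (gch q ρ) A = 0 := by
  classical
  rw [mass_gch hq hD]
  refine sum_eq_zero fun m hm => ?_
  rw [if_neg]
  exact not_sep_lp hq hD hA hl

/-- The weights of the image are `wJ`. -/
theorem wn_imC (hq : IsPolygon q) (hD : Encloses q D) (hs : Real.sin θ ≠ 0) (hc : 0 < Real.cos θ)
    (hβ : Real.cos (θ / 2 + β) = Real.sin θ) (hA : A ∈ pcs ω (D.image (· + a))) :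
    wn θ β (fun i => q i + a) (D.image (· + a)) k (imC θ β u q k a 0) A =
      wJ θ β (fun i => q i + a) (D.image (· + a)) k u A := by
  classical
  rw [wn_eq (poly_add hq a) (encl_add hD a) hs hc hβ hA]
  unfold wJ
  have e : mass (D.image (· + a)) (q 0 + a) (imC θ β u q k a 0) A =
      mass (D.image (· + a)) (q 0 + a) (gch (fun i => q i + a) (rc θ β u k)) A := by
    congr 1
    funext z
    unfold imC
    simp
  show wB θ β (fun i => q i + a) (D.image (· + a)) k A
    (mass (D.image (· + a)) (q 0 + a) (imC θ β u q k a 0) A) = _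
  rw [e]
  by_cases hl : IsLp (D.image (· + a)) A
  · have h1 := mass_lp (ρ := rc θ β u k) (poly_add hq a) (encl_add hD a) hA hl
    have h2 : lo (fun i => q i + a) A = 0 ∧ hi (fun i => q i + a) A = 0 := by
      have h3 : {z : ℕ | z < n ∧ be (fun i => q i + a) (z : ZMod n) ∈ A} = ∅ := by
        ext z
        simp only [Set.mem_setOf_eq, Set.mem_empty_iff_false, iff_false, not_and]
        exact fun _ => H601.LG.be_notMem_lp (poly_add hq a) (encl_add hD a) hA hl _
      unfold lo hi
      rw [h3]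
      simp
    rw [h2.1, h2.2, sub_self]
    show wB θ β (fun i => q i + a) (D.image (· + a)) k A
      (mass (D.image (· + a)) ((fun i => q i + a) 0) (gch (fun i => q i + a) (rc θ β u k)) A) = _
    rw [h1]
  · show wB θ β (fun i => q i + a) (D.image (· + a)) k A
      (mass (D.image (· + a)) ((fun i => q i + a) 0) (gch (fun i => q i + a) (rc θ β u k)) A) = _
    rw [mass_gch_strand (poly_add hq a) (encl_add hD a) hA hl]

theorem wn_zero (hq : IsPolygon q) (hD : Encloses q D) (hs : Real.sin θ ≠ 0)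
    (hc : 0 < Real.cos θ) (hβ : Real.cos (θ / 2 + β) = Real.sin θ) (hA : A ∈ pcs ω D) :
    wn θ β q D k 0 A = 1 := by
  have h := nat_ne (k := k) hq hD hs hc hβ hA
  unfold wn Wt
  have e : mass D (q 0) 0 A = 0 := by
    unfold mass
    simp
  rw [e, div_self h]

section

variable (ha : ¬ Even (a.1 + a.2)) (hq : IsPolygon q) (hD : Encloses q D)
  (hu : Bd (D : Set (ℤ × ℤ)) n (fun k => q (k : ZMod n)) u 1) (hs : 0 < Real.sin θ)
  (hc : 0 < Real.cos θ) (hβ : Real.cos (θ / 2 + β) = Real.sin θ) (hk : k ≤ n)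
  (hη : Dob η D q k) (hη₁ : Dob η₁ (D.image (· + a)) (fun i => q i + a) k)
include ha hq hD hu hs hc hβ hk hη hη₁

/-- **The value of the image in `D + a`.** -/
theorem ex_image : Ex (2 * Real.cos θ) (D.image (· + a)) η₁ (XW (D.image (· + a))
      (wJ θ β (fun i => q i + a) (D.image (· + a)) k u)) = lam θ β q D k a := by
  have h := im_XW (η := η) ha hq hD hu hs hc hβ hk hη hη₁ 0
  have e1 : Ex (2 * Real.cos θ) D η (XW D (wn θ β q D k 0)) = 1 := by
    have e2 : Ex (2 * Real.cos θ) D η (XW D (wn θ β q D k 0)) = Ex (2 * Real.cos θ) D η fun _ => 1 := by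
      refine FKA.Ex_congr fun S _ => ?_
      unfold XW
      exact prod_eq_one fun A hA => wn_zero hq hD hs.ne' hc hβ hA
    rw [e2, FKA.Ex_const (by linarith)]
  rw [e1, mul_one] at h
  rw [← h]
  refine FKA.Ex_congr fun S _ => ?_
  unfold XW
  exact prod_congr rfl fun A hA => (wn_imC hq hD hs.ne' hc hβ hA).symm

/-- **The value of the image in `D`.** -/
theorem ex_image' : Ex (2 * Real.cos θ) D η (XW D (wJ θ β q D k u)) = (lam θ β q D k a)⁻¹ := by
  have hD' : (D.image (· + a)).image (· + -a) = D := by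
    rw [image_image]
    conv_rhs => rw [← image_id (s := D)]
    refine image_congr fun v _ => ?_
    simp
  have hq' : (fun i => (fun i => q i + a) i + -a) = q := by
    funext i
    simp
  have h := ex_image (a := -a) (η := η₁) (η₁ := η) (q := fun i => q i + a) (D := D.image (· + a))
    (u := u) (k := k) (β := β) (by
      simp only [Prod.fst_neg, Prod.snd_neg]
      rw [Int.even_iff] at ha ⊢
      omega) (poly_add hq a) (encl_add hD a) (bd_add hu a) hs hc hβ hk hη₁ (by rw [hD', hq']; exact hη)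
  rw [hD', hq'] at h
  rw [h]
  unfold lam
  rw [hD', hq', inv_div]

end

end Vale.Agent.P167.H718.Lam
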