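import Vale.Agent.P167.H718.Lam.Br
import Vale.Agent.P167.H718.Lam.Inv
import Vale.Agent.P167.H825.Reg.Tr

/-!
# P167, general `q`, block Q-LAM: assembly, part 1

The expectations do not depend on the outside configuration; existence of the outside configurations;
the upper bound in terms of the unit polygons.
-/

namespace Vale.Agent.P167.H718.Lam

open Finset Filter Topology Vale.Agent.P167.BR Vale.Agent.P167.FK
open Vale.Agent.P167.E6 (IsPolygon Encloses dir)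
open Vale.Agent.P167.H365.NQ (XW TW)
open Vale.Agent.P167.H871 (Bd)
open Vale.Agent.P167.H601.LG (wJ)
open Vale.Agent.P167.H975 (TX TX_loc)
open Vale.Agent.P167.H825.Q (Bc)

variable {D : Finset (ℤ × ℤ)} {η η' : Cfg} {Q θ : ℝ} {N k : ℕ} {q : ZMod N → ℤ × ℤ} {F : Cfg → ℝ}

/-- The expectations of functions of the squares of `D` depend only on the boundary conditions. -/
theorem Ex_eta (hq : IsPolygon q) (hD : Encloses q D) (hk : k ≤ N) (hη : Dob η D q k)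
    (hη' : Dob η' D q k) (hQ : 0 < Q) (hF : ∀ ω ω' : Cfg, (∀ v ∈ D, ω v = ω' v) → F ω = F ω') :
    Ex Q D η F = Ex Q D η' F := by
  classical
  have hin : ∀ S : Finset (ℤ × ℤ), ∀ v ∈ D, cf D η S v = cf D η' S v := fun S v hv => by
    simp [cf, hv]
  rw [Ex_eq hq hD hk hη hQ, Ex_eq hq hD hk hη' hQ]
  have h1 : ∀ S ∈ D.powerset, (∏ A ∈ pcs (cf D η S) D, if IsCl D q k A then Q else 1) =
      ∏ A ∈ pcs (cf D η' S) D, if IsCl D q k A then Q else 1 := fun S _ => by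
    rw [pcs_congr (hin S)]
  rw [sum_congr rfl h1]
  congr 1
  refine sum_congr rfl fun S hS => ?_
  rw [h1 S hS, hF _ _ (hin S)]

theorem XW_on (w : Finset Ed → ℝ) : ∀ ω ω' : Cfg, (∀ v ∈ D, ω v = ω' v) → XW D w ω = XW D w ω' := by
  intro ω ω' h
  unfold XW
  rw [pcs_congr h]

theorem TX_on (w : Finset Ed → ℝ) (x : ℤ × ℤ) (r : ℤ) : ∀ ω ω' : Cfg, (∀ v ∈ D, ω v = ω' v) →
    TX w D x r ω = TX w D x r ω' := by
  intro ω ω' h
  exact TX_loc w D x r ω ω' fun v hv => h v (mem_inter.1 hv).2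

theorem TL_eq (w : Finset Ed → ℝ) (x : ℤ × ℤ) (r : ℕ) : TL w D x r = TX w D x (r : ℤ) := by
  funext ω
  unfold TL TX
  refine prod_congr ?_ fun _ _ => rfl
  ext A
  simp only [mem_filter, Ins]

namespace Uni

variable {U : Uni} {n : ℕ} {a : ℤ × ℤ} {τ : ℕ → ℤ}

/-- The gauge. -/
noncomputable def gB (θ : ℝ) : ℝ := (θ - Real.pi) / 2

/-- The expectation of the local product at the point `x`. -/
noncomputable def ek (U : Uni) (θ : ℝ) (n : ℕ) (a : ℤ × ℤ) (τ : ℕ → ℤ) (η : Cfg) (x : ℤ × ℤ)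
    (r : ℕ) : ℝ :=
  Ex (2 * Real.cos θ) (U.Da n a) η (TL (U.w θ ((θ - Real.pi) / 2) n a τ) (U.Da n a) x r)

open Classical in
/-- The product of the expectations over the special points. -/
noncomputable def eP (U : Uni) (θ : ℝ) (n : ℕ) (a : ℤ × ℤ) (τ : ℕ → ℤ) (η : Cfg) (r : ℕ) : ℝ :=
  (∏ j ∈ U.sp, U.ek θ n a τ η (U.pt n a j) r) *
    if U.IsDob then U.ek θ n a τ η (U.jn n a) r else 1

/-- The expectation of the product of all the weights. -/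
noncomputable def eXU (U : Uni) (θ : ℝ) (n : ℕ) (a : ℤ × ℤ) (τ : ℕ → ℤ) (η : Cfg) : ℝ :=
  Ex (2 * Real.cos θ) (U.Da n a) η (XW (U.Da n a) (U.w θ ((θ - Real.pi) / 2) n a τ))

end Uni

/-- **[U]** for a unit polygon. -/
def UU (θ : ℝ) (U : Uni) : Prop := ∃ ρ₀ : ℝ, 0 < ρ₀ ∧ ∀ ρ : ℝ, 0 < ρ → ρ ≤ ρ₀ →
  ∃ C : ℝ, 0 < C ∧ ∀ᶠ n : ℕ in atTop, ∀ (a : ℤ × ℤ) (τ : ℕ → ℤ) (η : Cfg), U.St n a τ η →
    |U.eXU θ n a τ η| ≤ C * U.eP θ n a τ η ⌊ρ * n⌋₊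

/-- **[L]** for a unit polygon. -/
def LU (θ : ℝ) (U : Uni) : Prop := ∃ ρ₀ : ℝ, 0 < ρ₀ ∧ ∀ ρ : ℝ, 0 < ρ → ρ ≤ ρ₀ →
  ∃ c : ℝ, 0 < c ∧ ∀ᶠ n : ℕ in atTop, ∀ (a : ℤ × ℤ) (τ : ℕ → ℤ) (η : Cfg), U.St n a τ η →
    c * U.eP θ n a τ η ⌊ρ * n⌋₊ ≤ U.eXU θ n a τ η

theorem Uni.k_fw {U : Uni} (hd : ¬ U.IsDob) (n : ℕ) : U.k n = 0 ∨ U.k n = U.l * n := by
  unfold IsDob at hd
  unfold k
  cases hb : U.bc with
  | free => exact Or.inr rfl
  | wired => exact Or.inl rfl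
  | dob ia ta => rw [hb] at hd; exact absurd trivial hd

section

variable {U : Uni}

theorem Uni.poly_qa (hU : U.Ok) {n : ℕ} (hn : 0 < n) (a : ℤ × ℤ) : IsPolygon (U.qa n a) :=
  poly_add (Enl.isPolygon_qN hn hU.poly _) a

theorem Uni.enc_qa (hU : U.Ok) {n : ℕ} (hn : 0 < n) (a : ℤ × ℤ) : Encloses (U.qa n a) (U.Da n a) :=
  encl_add (Enl.encloses_qN hn hU.poly hU.enc _) a

theorem floor_cast {ρ : ℝ} (hρ : 0 ≤ ρ) (n : ℕ) : ((⌊ρ * n⌋₊ : ℕ) : ℤ) = ⌊ρ * n⌋ :=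
  Int.natCast_floor_eq_floor (by positivity)

/-- The products over the special points, in the two languages. -/
theorem eP_pg {n : ℕ} {a : ℤ × ℤ} {τ : ℕ → ℤ} {η η' : Cfg} {r : ℕ} (hU : U.Ok) (hn : 0 < n)
    (hc : 0 < Real.cos θ) (hk : U.k n ≤ U.l * n) (hη : U.St n a τ η) (hη' : U.St n a τ η')
    (h : ∀ f : ℤ × ℤ → ℝ, ∏ j ∈ (U.pg n a τ η').sp, f (U.qa n a (j : ZMod (U.l * n))) =
      (∏ x ∈ U.sp, f (U.pt n a x)) * open Classical in if U.IsDob then f (U.jn n a) else 1) :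
    ∏ j ∈ (U.pg n a τ η').sp, (U.pg n a τ η').eT θ j (r : ℤ) = U.eP θ n a τ η r := by
  classical
  have e : ∀ x : ℤ × ℤ, Ex (2 * Real.cos θ) (U.Da n a) η' (TX ((U.pg n a τ η').w θ) (U.Da n a) x
      (r : ℤ)) = U.ek θ n a τ η x r := by
    intro x
    unfold Uni.ek
    rw [TL_eq]
    exact Ex_eta (U.poly_qa hU hn a) (U.enc_qa hU hn a) hk hη'.dob hη.dob (by linarith)
      (TX_on _ x r)
  have h1 := h fun x => Ex (2 * Real.cos θ) (U.Da n a) η' (TX ((U.pg n a τ η').w θ) (U.Da n a) x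
    (r : ℤ))
  have h2 : ∏ j ∈ (U.pg n a τ η').sp, (U.pg n a τ η').eT θ j (r : ℤ) =
      ∏ j ∈ (U.pg n a τ η').sp, Ex (2 * Real.cos θ) (U.Da n a) η'
        (TX ((U.pg n a τ η').w θ) (U.Da n a) (U.qa n a (j : ZMod (U.l * n))) (r : ℤ)) := rfl
  rw [h2, h1]
  unfold Uni.eP
  simp only [e]

theorem eXU_pg {n : ℕ} {a : ℤ × ℤ} {τ : ℕ → ℤ} {η η' : Cfg} (hU : U.Ok) (hn : 0 < n)
    (hc : 0 < Real.cos θ) (hk : U.k n ≤ U.l * n) (hη : U.St n a τ η) (hη' : U.St n a τ η') :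
    (U.pg n a τ η').eX θ = U.eXU θ n a τ η :=
  Ex_eta (U.poly_qa hU hn a) (U.enc_qa hU hn a) hk hη'.dob hη.dob (by linarith) (XW_on _)

/-- **[U]** from the general form. -/
theorem uU_of (hc : 0 < Real.cos θ) (hU : U.Ok) (hB : BrU θ U) (h : U_S θ) : UU θ U := by
  classical
  obtain ⟨σ, R, hσ, hB⟩ := hB
  obtain ⟨ρ₀, hρ₀, h⟩ := h σ R hσ
  refine ⟨ρ₀, hρ₀, fun ρ h0 h1 => ?_⟩
  obtain ⟨C, n₀, hC, h⟩ := h ρ h0 h1
  refine ⟨C, hC, ?_⟩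
  filter_upwards [hB, eventually_ge_atTop n₀, eventually_gt_atTop 0] with n h2 h3 hn a τ η hη
  obtain ⟨η', h4, h5, h6, hv, h7⟩ := h2 a τ η hη
  have h8 := h n h3 _ h5 h6 fun k0 k1 => hv (by
    by_contra hd
    rcases U.k_fw hd n with e | e
    · exact absurd e (Nat.pos_iff_ne_zero.1 k0)
    · exact absurd e (ne_of_lt k1))
  rw [eXU_pg hU hn hc h5.kle hη h4] at h8
  rw [← floor_cast h0.le, eP_pg hU hn hc h5.kle hη h4 (by convert h7)] at h8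
  exact h8

end

end Vale.Agent.P167.H718.Lam
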