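import Vale.Agent.P167.H718.Lam.Asm1

/-!
# P167, general `q`, block Q-LAM: assembly, part 2

Existence of the lifted directions and of the outside configurations; the values of the parity images
of `D` and `D + a` are inverse to each other; parities of the special points.
-/

namespace Vale.Agent.P167.H718.Lam

open Finset Filter Topology Vale.Agent.P167.BR Vale.Agent.P167.FK
open Vale.Agent.P167.E6 (IsPolygon Encloses dir)
open Vale.Agent.P167.H365.NQ (XW TW)
open Vale.Agent.P167.H871 (Bd)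
open Vale.Agent.P167.H825.Q (Bc)

variable {U : Uni} {n : ℕ} {a : ℤ × ℤ} {τ : ℕ → ℤ} {η η₀ η₁ : Cfg} {θ : ℝ}

namespace Uni

theorem t_lt (hU : U.Ok) (hn : 0 < n) : U.t n < n := by
  have hn' : (0 : ℝ) < n := by exact_mod_cast hn
  unfold t
  rw [Nat.floor_lt' (by omega)]
  have h := hU.bok
  unfold BOk at h
  split at h
  · nlinarith [h.1, h.2.1]
  · rw [h.1]
    linarith

theorem kle (hU : U.Ok) (hn : 0 < n) : U.k n ≤ U.l * n := by
  have ht := U.t_lt hU hn
  have hn' : (0 : ℝ) < n := by exact_mod_cast hn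
  have h := hU.bok
  unfold k
  unfold BOk at h
  cases hb : U.bc with
  | free => exact le_rfl
  | wired => exact Nat.zero_le _
  | dob ia ta =>
    rw [hb] at h
    obtain ⟨h0, h1, h2, h3, h4, h5, -, -⟩ := h
    refine (Enl.kOf_lt h3 ?_ ht).le
    rw [Nat.floor_lt (by positivity)]
    nlinarith

/-- The lifted directions exist. -/
theorem ex_bd (hU : U.Ok) (hn : 0 < n) :
    ∃ τ : ℕ → ℤ, Bd (U.D n : Set (ℤ × ℤ)) (U.l * n) (fun i => U.q n (i : ZMod (U.l * n))) τ 1 :=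
  H871.exists_bd (Enl.isPolygon_qN hn hU.poly _) (Enl.encloses_qN hn hU.poly hU.enc _)

/-- The outside configurations exist. -/
theorem ex_st (hU : U.Ok) : ∀ᶠ n : ℕ in atTop, ∀ (a : ℤ × ℤ) (τ : ℕ → ℤ),
    (a = 0 ∨ ∃ s : Fin 4, a = dir s) →
    Bd (U.D n : Set (ℤ × ℤ)) (U.l * n) (fun i => U.q n (i : ZMod (U.l * n))) τ 1 →
    ∃ η : Cfg, U.St n a τ η := by
  have h := hU.bok
  unfold BOk at h
  cases hb : U.bc with
  | free =>
    obtain ⟨c, hc, h2⟩ := H825.Reg.s_REG_fw hU.poly hU.enc (bc := Bc.free) (Or.inl rfl)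
    filter_upwards [h2] with n hn a τ ha hτ
    obtain ⟨η, h3, -⟩ := hn (U.t n) a
    refine ⟨η, ha, hτ, ?_⟩
    unfold k
    rw [hb]
    exact h3
  | wired =>
    obtain ⟨c, hc, h2⟩ := H825.Reg.s_REG_fw hU.poly hU.enc (bc := Bc.wired) (Or.inr rfl)
    filter_upwards [h2] with n hn a τ ha hτ
    obtain ⟨η, h3, -⟩ := hn (U.t n) a
    refine ⟨η, ha, hτ, ?_⟩
    unfold k
    rw [hb]
    exact h3
  | dob ia ta =>
    rw [hb] at h
    obtain ⟨h0, h1, h2, h3, h4, h5, -, -⟩ := h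
    obtain ⟨c, hc, h6⟩ := H825.Reg.s_REG_tr hU.poly hU.enc h0 h1 (bc := Bc.dob ia ta)
      ⟨h2, h3, h4, h5⟩
    filter_upwards [h6] with n hn a τ ha hτ
    obtain ⟨η, h7, -⟩ := hn a
    refine ⟨η, ha, hτ, ?_⟩
    unfold k
    rw [hb]
    exact h7

end Uni

theorem dir_odd (s : Fin 4) : ¬ Even ((dir s).1 + (dir s).2) := by
  fin_cases s <;> decide

theorem Da_zero : U.Da n 0 = U.D n := by
  unfold Uni.Da
  simp

theorem qa_zero : U.qa n 0 = U.q n := by
  funext i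
  unfold Uni.qa
  simp

/-- The value of the parity image in `D + dir s`. -/
theorem eXU_dir (hU : U.Ok) (hn : 0 < n) (h0 : 0 < θ) (h1 : θ ≤ Real.pi / 3) {s : Fin 4}
    (h2 : U.St n 0 τ η₀) (h3 : U.St n (dir s) τ η₁) :
    U.eXU θ n (dir s) τ η₁ = lam θ ((θ - Real.pi) / 2) (U.q n) (U.D n) (U.k n) (dir s) ∧
      U.eXU θ n 0 τ η₀ = (lam θ ((θ - Real.pi) / 2) (U.q n) (U.D n) (U.k n) (dir s))⁻¹ ∧
      0 < lam θ ((θ - Real.pi) / 2) (U.q n) (U.D n) (U.k n) (dir s) := by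
  have hpi := Real.pi_pos
  have hs : 0 < Real.sin θ := Real.sin_pos_of_pos_of_lt_pi h0 (by linarith)
  have hc : 0 < Real.cos θ := Real.cos_pos_of_mem_Ioo ⟨by linarith, by linarith⟩
  have hβ : Real.cos (θ / 2 + (θ - Real.pi) / 2) = Real.sin θ := by
    rw [show θ / 2 + (θ - Real.pi) / 2 = θ - Real.pi / 2 by ring, Real.cos_sub_pi_div_two]
  have hq : IsPolygon (U.q n) := Enl.isPolygon_qN hn hU.poly _
  have hD : Encloses (U.q n) (U.D n) := Enl.encloses_qN hn hU.poly hU.enc _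
  have d0 := h2.dob
  rw [Da_zero, qa_zero] at d0
  refine ⟨?_, ?_, lam_pos (dir_odd s) hq hD h3.bd hs hc hβ (U.kle hU hn) d0 h3.dob⟩
  · exact ex_image (dir_odd s) hq hD h3.bd hs hc hβ (U.kle hU hn) d0 h3.dob
  · have h4 := ex_image' (dir_odd s) hq hD h3.bd hs hc hβ (U.kle hU hn) d0 h3.dob
    unfold Uni.eXU Uni.w
    rw [Da_zero, qa_zero]
    exact h4

/-- The special points of the translated polygon. -/
theorem pt_add (U : Uni) (n : ℕ) (a : ℤ × ℤ) (j : Option ℕ) : U.pt n a j = U.pt n 0 j + a := by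
  cases j with
  | none =>
    unfold Uni.pt Uni.qa
    simp
  | some i =>
    unfold Uni.pt
    simp

theorem jn_add (U : Uni) (n : ℕ) (a : ℤ × ℤ) : U.jn n a = U.jn n 0 + a := by
  unfold Uni.jn Uni.qa
  simp

theorem par_dir (x : ℤ × ℤ) (s : Fin 4) :
    Even ((x + dir s).1 + (x + dir s).2) ↔ ¬ Even (x.1 + x.2) := by
  have h := dir_odd s
  simp only [Prod.fst_add, Prod.snd_add]
  rw [Int.even_iff] at *
  rw [Int.even_iff]
  omega

end Vale.Agent.P167.H718.Lam
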