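import Vale.Agent.P167.H718.Lam.Asm2

/-!
# P167, general `q`, block Q-LAM: assembly, part 3

The expectations of the local products at the special points are positive.
-/

namespace Vale.Agent.P167.H718.Lam

open Finset Filter Topology Vale.Agent.P167.BR Vale.Agent.P167.FK
open Vale.Agent.P167.E6 (IsPolygon Encloses dir)
open Vale.Agent.P167.H365.NQ (XW TW)
open Vale.Agent.P167.H871 (Bd)
open Vale.Agent.P167.H601.LG (wJ Spe Fw Kt exists_low_loc wJ_fw2)
open Vale.Agent.P167.H975 (TX)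

variable {θ : ℝ}

/-- Local positivity. -/
theorem T_pos (h0 : 0 < θ) (h1 : θ ≤ Real.pi / 3) {X : Pg} {n : ℕ} {σ R : ℝ} (hX : X.Ok n σ R)
    (hT : X.Ty θ) {r : ℤ} (hr : 3 * (r + 1) < n) (hr2 : 4 * (r + 1) < (⌊σ * n⌋₊ : ℕ)) {j : ℕ}
    (hj : j ∈ X.sp) (ω : Cfg) : 0 ≤ X.T θ j r ω ∧
      (¬ (0 < X.k ∧ X.k < X.N ∧ j = X.k) → 0 < X.T θ j r ω) := by
  classical
  obtain ⟨c, hc0, -, hc⟩ := exists_low_loc h0 h1
  unfold Pg.sp at hj
  rw [mem_filter, mem_range] at hj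
  have key : ∀ A ∈ (pcs ω X.D).filter (fun A => ∀ e ∈ A, hdv e ∈ Bq (X.q (j : ZMod X.N)) r),
      0 < X.w θ A ∨ ((0 < X.k ∧ X.k < X.N ∧ j = X.k) ∧ X.w θ A = 0) := by
    intro A hA
    rw [mem_filter] at hA
    rcases hc hX.geo hX.poly hX.enc hA.1 hX.sep hT hr hr2 hj.1 hj.2 hA.2 with h |
      ⟨h2, h3, h4, h5, h6, h7⟩
    · exact Or.inl (lt_of_lt_of_le hc0 h)
    · refine Or.inr ⟨⟨h2, h3, h4⟩, ?_⟩
      unfold Pg.w
      rw [wJ_fw2 rfl h5 h6, h7]
      simp
  constructor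
  · refine prod_nonneg fun A hA => ?_
    rcases key A hA with h | h
    · exact h.le
    · exact h.2.ge
  · intro hne
    refine prod_pos fun A hA => ?_
    rcases key A hA with h | h
    · exact h
    · exact absurd h.1 hne

theorem Ex_pos {Q : ℝ} (hQ : 0 < Q) {D : Finset (ℤ × ℤ)} {η : Cfg} {F : Cfg → ℝ}
    (h : ∀ ω, 0 < F ω) : 0 < Ex Q D η F := by
  unfold Ex
  refine div_pos (sum_pos (fun S _ => mul_pos (pow_pos hQ _) (h _)) ⟨∅, empty_mem_powerset D⟩)
    (FKA.Zq_pos hQ D η)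

/-- The special points are sites of special indices, none is the junction. -/
theorem sp_index {U : Uni} {n : ℕ} {a : ℤ × ℤ} {τ : ℕ → ℤ} {η : Cfg} {σ R : ℝ}
    (hX : (U.pg n a τ η).Ok n σ R) (h : ∀ f : ℤ × ℤ → ℝ,
      ∏ j ∈ (U.pg n a τ η).sp, f (U.qa n a (j : ZMod (U.l * n))) =
        (∏ x ∈ U.sp, f (U.pt n a x)) * open Classical in if U.IsDob then f (U.jn n a) else 1)
    {x : Option ℕ} (hx : x ∈ U.sp) :
    ∃ j ∈ (U.pg n a τ η).sp, U.qa n a (j : ZMod (U.l * n)) = U.pt n a x ∧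
      (U.IsDob → U.k n < U.l * n → j ≠ U.k n) := by
  classical
  have h1 := h fun y => if y = U.pt n a x then 0 else 1
  have h2 : (∏ x' ∈ U.sp, if U.pt n a x' = U.pt n a x then (0 : ℝ) else 1) = 0 :=
    prod_eq_zero hx (if_pos rfl)
  rw [h2, zero_mul, prod_eq_zero_iff] at h1
  obtain ⟨j, hj, h3⟩ := h1
  have h4 : U.qa n a (j : ZMod (U.l * n)) = U.pt n a x := by
    by_contra hne
    rw [if_neg hne] at h3
    exact one_ne_zero h3
  refine ⟨j, hj, h4, fun hd hk hjk => ?_⟩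
  -- the junction is not a special point
  have h5 := h fun y => if y = U.jn n a then 2 else 1
  have h6 : (∏ j' ∈ (U.pg n a τ η).sp, if U.qa n a (j' : ZMod (U.l * n)) = U.jn n a then (2 : ℝ)
      else 1) = 2 := by
    rw [prod_eq_single_of_mem j hj]
    · rw [if_pos (by rw [hjk]; rfl)]
    · intro j' hj' hne
      rw [if_neg]
      intro h7
      apply hne
      have h8 : ((j' : ℕ) : ZMod (U.l * n)) = ((U.k n : ℕ) : ZMod (U.l * n)) :=
        hX.poly.2.1 h7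
      have e1 : j' < U.l * n := by
        have := mem_filter.1 hj'
        exact mem_range.1 this.1
      rw [ZMod.natCast_eq_natCast_iff', Nat.mod_eq_of_lt e1, Nat.mod_eq_of_lt hk] at h8
      rw [h8, hjk]
  have h9 : (2 : ℝ) ≤ ∏ x' ∈ U.sp, (if U.pt n a x' = U.jn n a then (2 : ℝ) else 1) := by
    have e2 : (1 : ℝ) ≤ ∏ x' ∈ U.sp.erase x, (if U.pt n a x' = U.jn n a then (2 : ℝ) else 1) := by
      calc (1 : ℝ) = ∏ x' ∈ U.sp.erase x, (1 : ℝ) := prod_const_one.symm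
        _ ≤ _ := prod_le_prod (fun _ _ => zero_le_one) fun i _ => by
          split_ifs
          · norm_num
          · exact le_rfl
    rw [← mul_prod_erase _ _ hx, if_pos (by rw [← h4, hjk]; rfl)]
    linarith
  rw [h6, if_pos hd, if_pos rfl] at h5
  linarith

end Vale.Agent.P167.H718.Lam
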