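import Vale.Agent.P167.H718.Lam.Asm3

/-!
# P167, general `q`, block Q-LAM: assembly, part 4

Representatives of the types of the special points; comparison of the products over the special points
of a unit polygon (both parities) with the products of the representatives.
-/

namespace Vale.Agent.P167.H718.Lam

open Finset Filter Topology Vale.Agent.P167.BR Vale.Agent.P167.FK
open Vale.Agent.P167.E6 (IsPolygon Encloses dir)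
open Vale.Agent.P167.H871 (Bd)

variable {θ : ℝ}

/-! ### uniformity over finite sets -/

theorem fin_unif {ι : Type*} (s : Finset ι) {Φ : ι → ℝ → ℝ → ℕ → Prop}
    (h : ∀ x ∈ s, ∃ ρ₀ : ℝ, 0 < ρ₀ ∧ ∀ ρ : ℝ, 0 < ρ → ρ ≤ ρ₀ → ∃ C : ℝ, 0 < C ∧
      ∀ᶠ n : ℕ in atTop, Φ x ρ C n) :
    ∃ ρ₀ : ℝ, 0 < ρ₀ ∧ ∀ ρ : ℝ, 0 < ρ → ρ ≤ ρ₀ → ∃ C : ι → ℝ, (∀ x, 0 < C x) ∧
      ∀ᶠ n : ℕ in atTop, ∀ x ∈ s, Φ x ρ (C x) n := by
  classical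
  induction s using Finset.induction_on with
  | empty => exact ⟨1, one_pos, fun ρ _ _ => ⟨fun _ => 1, fun _ => one_pos, by simp⟩⟩
  | insert a s ha ih =>
    obtain ⟨ρ₁, h1, h2⟩ := ih fun x hx => h x (mem_insert_of_mem hx)
    obtain ⟨ρ₂, h3, h4⟩ := h a (mem_insert_self a s)
    refine ⟨min ρ₁ ρ₂, lt_min h1 h3, fun ρ h5 h6 => ?_⟩
    obtain ⟨C, hC, h7⟩ := h2 ρ h5 (h6.trans (min_le_left _ _))
    obtain ⟨C', hC', h8⟩ := h4 ρ h5 (h6.trans (min_le_right _ _))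
    refine ⟨fun x => if x = a then C' else C x, fun x => ?_, ?_⟩
    · show 0 < if x = a then C' else C x
      split_ifs
      · exact hC'
      · exact hC x
    · filter_upwards [h7, h8] with n h9 h10 x hx
      rw [mem_insert] at hx
      by_cases hxa : x = a
      · subst hxa
        show Φ x ρ (if x = x then C' else C x) n
        rw [if_pos rfl]
        exact h10
      · show Φ x ρ (if x = a then C' else C x) n
        rw [if_neg hxa]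
        exact h9 x (hx.resolve_left hxa)

/-! ### positivity -/

namespace Uni

variable {U : Uni}

theorem k_lt (hU : U.Ok) (hd : U.IsDob) {n : ℕ} (hn : 0 < n) : U.k n < U.l * n := by
  have ht := U.t_lt hU hn
  have hn' : (0 : ℝ) < n := by exact_mod_cast hn
  have h := hU.bok
  unfold IsDob at hd
  unfold BOk at h
  unfold k
  cases hb : U.bc with
  | free => rw [hb] at hd; exact hd.elim
  | wired => rw [hb] at hd; exact hd.elim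
  | dob ia ta =>
    rw [hb] at h
    obtain ⟨h0, h1, h2, h3, h4, h5, -, -⟩ := h
    refine Enl.kOf_lt h3 ?_ ht
    rw [Nat.floor_lt (by positivity)]
    nlinarith

end Uni

/-- **Positivity.** -/
theorem ek_pos (h0 : 0 < θ) (h1 : θ ≤ Real.pi / 3) {U : Uni} (hU : U.Ok) (hB : BrU θ U) :
    ∃ ρ₀ : ℝ, 0 < ρ₀ ∧ ∀ ρ : ℝ, 0 < ρ → ρ ≤ ρ₀ → ∀ᶠ n : ℕ in atTop, ∀ (a : ℤ × ℤ) (τ : ℕ → ℤ)
      (η : Cfg), U.St n a τ η → (∀ x ∈ U.sp, 0 < U.ek θ n a τ η (U.pt n a x) ⌊ρ * n⌋₊) ∧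
        (U.IsDob → 0 ≤ U.ek θ n a τ η (U.jn n a) ⌊ρ * n⌋₊) := by
  classical
  have hpi := Real.pi_pos
  have hc : 0 < Real.cos θ := Real.cos_pos_of_mem_Ioo ⟨by linarith, by linarith⟩
  obtain ⟨σ, R, hσ, hB⟩ := hB
  refine ⟨min (1 / 8) (σ / 16), lt_min (by norm_num) (by linarith), fun ρ h2 h3 => ?_⟩
  have hρ1 : ρ ≤ 1 / 8 := h3.trans (min_le_left _ _)
  have hρ2 : ρ ≤ σ / 16 := h3.trans (min_le_right _ _)
  have hev : ∀ᶠ n : ℕ in atTop, 16 / σ < n := tendsto_natCast_atTop_atTop.eventually_gt_atTop _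
  filter_upwards [hB, eventually_ge_atTop 16, hev] with n h4 hn hn2 a τ η hη
  have hn0 : 0 < n := by omega
  have hnR : (16 : ℝ) ≤ n := by exact_mod_cast hn
  obtain ⟨η', h5, h6, h7, -, h8⟩ := h4 a τ η hη
  have h8' : ∀ f : ℤ × ℤ → ℝ, ∏ j ∈ (U.pg n a τ η').sp, f (U.qa n a (j : ZMod (U.l * n))) =
      (∏ x ∈ U.sp, f (U.pt n a x)) * open Classical in if U.IsDob then f (U.jn n a) else 1 := by
    intro f
    rw [h8 f]
  have hfl : ((⌊ρ * n⌋₊ : ℕ) : ℝ) ≤ ρ * n := Nat.floor_le (by positivity)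
  have hr1 : 3 * (((⌊ρ * n⌋₊ : ℕ) : ℤ) + 1) < n := by
    have : 3 * (((⌊ρ * n⌋₊ : ℕ) : ℝ) + 1) < n := by nlinarith
    exact_mod_cast this
  have hr2 : 4 * (((⌊ρ * n⌋₊ : ℕ) : ℤ) + 1) < (⌊σ * n⌋₊ : ℕ) := by
    have e1 : σ * n < (⌊σ * n⌋₊ : ℕ) + 1 := Nat.lt_floor_add_one _
    have e2 : 16 < σ * n := by
      rw [div_lt_iff₀ hσ] at hn2
      linarith
    have : 4 * (((⌊ρ * n⌋₊ : ℕ) : ℝ) + 1) < (⌊σ * n⌋₊ : ℕ) := by nlinarith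
    exact_mod_cast this
  have hE : ∀ x : ℤ × ℤ, U.ek θ n a τ η x ⌊ρ * n⌋₊ = Ex (2 * Real.cos θ) (U.Da n a) η'
      (H975.TX ((U.pg n a τ η').w θ) (U.Da n a) x ((⌊ρ * n⌋₊ : ℕ) : ℤ)) := by
    intro x
    unfold Uni.ek
    rw [TL_eq]
    exact Ex_eta (U.poly_qa hU hn0 a) (U.enc_qa hU hn0 a) (U.kle hU hn0) hη.dob h5.dob
      (by linarith) (TX_on _ x _)
  constructor
  · intro x hx
    obtain ⟨j, hj, h9, h10⟩ := sp_index h6 h8' hx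
    rw [hE, ← h9]
    refine Ex_pos (by linarith) fun ω => ?_
    refine (T_pos h0 h1 h6 h7 hr1 hr2 hj ω).2 ?_
    rintro ⟨e1, e2, e3⟩
    by_cases hd : U.IsDob
    · exact h10 hd (U.k_lt hU hd hn0) e3
    · rcases U.k_fw hd n with e | e
      · exact absurd e (Nat.pos_iff_ne_zero.1 e1)
      · exact absurd e (ne_of_lt e2)
  · intro hd
    rw [hE]
    refine FKA.Ex_nonneg (by linarith) fun S _ => ?_
    refine (T_pos h0 h1 h6 h7 hr1 hr2 (j := U.k n) ?_ _).1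
    unfold Pg.sp
    rw [mem_filter, mem_range]
    exact ⟨U.k_lt hU hd hn0, Or.inr (Or.inl rfl)⟩

/-! ### representatives -/

open Classical in
/-- The expectation at a special point, for a choice of the lifted directions and of the outside. -/
noncomputable def kv (V : Uni) (θ : ℝ) (n : ℕ) (a : ℤ × ℤ) (x : ℤ × ℤ) (r : ℕ) : ℝ :=
  if h : ∃ τ η, V.St n a τ η then V.ek θ n a h.choose h.choose_spec.choose x r else 1

open Classical in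
/-- The product of the values for both parities, for the special point `y`. -/
noncomputable def kw (θ : ℝ) (n r : ℕ) (y : Uni × Option ℕ) : ℝ :=
  kv y.1 θ n 0 (y.1.pt n 0 y.2) r * kv y.1 θ n (dir 0) (y.1.pt n (dir 0) y.2) r

/-- A special point of the type `κ`. -/
def IsRep (κ : Uni.Kind) (y : Uni × Option ℕ) : Prop := y.1.Ok ∧ y.2 ∈ y.1.sp ∧ y.1.kind y.2 = κ

open Classical in
/-- The factor of the type `κ`. -/
noncomputable def hK (θ : ℝ) (n r : ℕ) (κ : Uni.Kind) : ℝ :=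
  if h : ∃ y, IsRep κ y then (if 0 < kw θ n r h.choose then kw θ n r h.choose else 1) else 1

theorem hK_pos (θ : ℝ) (n r : ℕ) (κ : Uni.Kind) : 0 < hK θ n r κ := by
  unfold hK
  split_ifs <;> first | assumption | exact one_pos

/-- Comparison in both directions, with positivity. -/
theorem lk_both (h0 : 0 < θ) (h1 : θ ≤ Real.pi / 3) (hBr : ∀ U : Uni, U.Ok → BrU θ U)
    (hLK : LK θ ((θ - Real.pi) / 2)) {U V : Uni} (hU : U.Ok) (hV : V.Ok)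
    {x y : Option ℕ} (hx : x ∈ U.sp) (hy : y ∈ V.sp) (hxy : U.kind x = V.kind y) :
    ∃ ρ₀ : ℝ, 0 < ρ₀ ∧ ∀ ρ : ℝ, 0 < ρ → ρ ≤ ρ₀ → ∃ C : ℝ, 0 < C ∧ ∀ᶠ n : ℕ in atTop,
    ∀ (a a' : ℤ × ℤ) (τ τ' : ℕ → ℤ) (η η' : Cfg), U.St n a τ η → V.St n a' τ' η' →
    0 < U.ek θ n a τ η (U.pt n a x) ⌊ρ * n⌋₊ ∧ 0 < V.ek θ n a' τ' η' (V.pt n a' y) ⌊ρ * n⌋₊ ∧
    ((Even ((U.pt n a x).1 + (U.pt n a x).2) ↔ Even ((V.pt n a' y).1 + (V.pt n a' y).2)) →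
    U.ek θ n a τ η (U.pt n a x) ⌊ρ * n⌋₊ ≤ C * V.ek θ n a' τ' η' (V.pt n a' y) ⌊ρ * n⌋₊ ∧
      V.ek θ n a' τ' η' (V.pt n a' y) ⌊ρ * n⌋₊ ≤ C * U.ek θ n a τ η (U.pt n a x) ⌊ρ * n⌋₊) := by
  obtain ⟨ρ₁, h1', h2⟩ := hLK U V hU hV x hx y hy hxy
  obtain ⟨ρ₂, h3, h4⟩ := hLK V U hV hU y hy x hx hxy.symm
  obtain ⟨ρ₃, p1, p2⟩ := ek_pos h0 h1 hU (hBr U hU)
  obtain ⟨ρ₄, p3, p4⟩ := ek_pos h0 h1 hV (hBr V hV)
  refine ⟨min (min ρ₁ ρ₂) (min ρ₃ ρ₄), lt_min (lt_min h1' h3) (lt_min p1 p3), fun ρ h5 h6 => ?_⟩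
  obtain ⟨C₁, hC₁, h7⟩ := h2 ρ h5 (h6.trans ((min_le_left _ _).trans (min_le_left _ _)))
  obtain ⟨C₂, hC₂, h8⟩ := h4 ρ h5 (h6.trans ((min_le_left _ _).trans (min_le_right _ _)))
  have p5 := p2 ρ h5 (h6.trans ((min_le_right _ _).trans (min_le_left _ _)))
  have p6 := p4 ρ h5 (h6.trans ((min_le_right _ _).trans (min_le_right _ _)))
  refine ⟨max C₁ C₂, lt_max_of_lt_left hC₁, ?_⟩
  filter_upwards [h7, h8, p5, p6] with n h9 h10 h11 h12 a a' τ τ' η η' hη hη'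
  have q1 := (h11 a τ η hη).1 x hx
  have q2 := (h12 a' τ' η' hη').1 y hy
  refine ⟨q1, q2, fun hp => ⟨?_, ?_⟩⟩
  · exact (h9 a a' τ τ' η η' hη hη' hp).trans (mul_le_mul_of_nonneg_right (le_max_left _ _) q2.le)
  · exact (h10 a' a τ' τ η' η hη' hη hp.symm).trans
      (mul_le_mul_of_nonneg_right (le_max_right _ _) q1.le)

/-- Two products, same or exchanged parities. -/
theorem two_par {a₀ a₁ b₀ b₁ C : ℝ} {P Q : Prop} (ha0 : 0 < a₀) (ha1 : 0 < a₁) (hb0 : 0 < b₀)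
    (hb1 : 0 < b₁) (h00 : (P ↔ Q) → a₀ ≤ C * b₀ ∧ b₀ ≤ C * a₀)
    (h11 : (P ↔ Q) → a₁ ≤ C * b₁ ∧ b₁ ≤ C * a₁) (h01 : (P ↔ ¬ Q) → a₀ ≤ C * b₁ ∧ b₁ ≤ C * a₀)
    (h10 : (P ↔ ¬ Q) → a₁ ≤ C * b₀ ∧ b₀ ≤ C * a₁) :
    a₀ * a₁ ≤ C ^ 2 * (b₀ * b₁) ∧ b₀ * b₁ ≤ C ^ 2 * (a₀ * a₁) := by
  by_cases h : P ↔ Q
  · obtain ⟨x1, x2⟩ := h00 h
    obtain ⟨y1, y2⟩ := h11 h
    constructor
    · calc a₀ * a₁ ≤ (C * b₀) * (C * b₁) := mul_le_mul x1 y1 ha1.le (ha0.le.trans x1)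
        _ = _ := by ring
    · calc b₀ * b₁ ≤ (C * a₀) * (C * a₁) := mul_le_mul x2 y2 hb1.le (hb0.le.trans x2)
        _ = _ := by ring
  · have h' : P ↔ ¬ Q := by tauto
    obtain ⟨x1, x2⟩ := h01 h'
    obtain ⟨y1, y2⟩ := h10 h'
    constructor
    · calc a₀ * a₁ ≤ (C * b₁) * (C * b₀) := mul_le_mul x1 y1 ha1.le (ha0.le.trans x1)
        _ = _ := by ring
    · calc b₀ * b₁ ≤ (C * a₁) * (C * a₀) := mul_le_mul y2 x2 hb1.le (hb0.le.trans y2)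
        _ = _ := by ring

/-- The chosen data exist. -/
theorem ex_dat {V : Uni} (hV : V.Ok) : ∀ᶠ n : ℕ in atTop, ∀ a : ℤ × ℤ,
    (a = 0 ∨ ∃ s : Fin 4, a = dir s) → ∃ τ η, V.St n a τ η := by
  filter_upwards [V.ex_st hV, eventually_gt_atTop 0] with n h hn a ha
  obtain ⟨τ, hτ⟩ := V.ex_bd hV hn
  obtain ⟨η, hη⟩ := h a τ ha hτ
  exact ⟨τ, η, hη⟩

/-- **Comparison of a special point with the representative of its type.** -/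
theorem cmp_K (h0 : 0 < θ) (h1 : θ ≤ Real.pi / 3) (hBr : ∀ U : Uni, U.Ok → BrU θ U)
    (hLK : LK θ ((θ - Real.pi) / 2)) {U : Uni} (hU : U.Ok) {x : Option ℕ} (hx : x ∈ U.sp) :
    ∃ ρ₀ : ℝ, 0 < ρ₀ ∧ ∀ ρ : ℝ, 0 < ρ → ρ ≤ ρ₀ → ∃ C : ℝ, 0 < C ∧ ∀ᶠ n : ℕ in atTop,
    ∀ (s : Fin 4) (τ : ℕ → ℤ) (η₀ η₁ : Cfg), U.St n 0 τ η₀ → U.St n (dir s) τ η₁ →
    0 < U.ek θ n 0 τ η₀ (U.pt n 0 x) ⌊ρ * n⌋₊ * U.ek θ n (dir s) τ η₁ (U.pt n (dir s) x) ⌊ρ * n⌋₊ ∧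
    U.ek θ n 0 τ η₀ (U.pt n 0 x) ⌊ρ * n⌋₊ * U.ek θ n (dir s) τ η₁ (U.pt n (dir s) x) ⌊ρ * n⌋₊ ≤
      C * hK θ n ⌊ρ * n⌋₊ (U.kind x) ∧
    hK θ n ⌊ρ * n⌋₊ (U.kind x) ≤ C * (U.ek θ n 0 τ η₀ (U.pt n 0 x) ⌊ρ * n⌋₊ *
      U.ek θ n (dir s) τ η₁ (U.pt n (dir s) x) ⌊ρ * n⌋₊) := by
  classical
  have hex : ∃ y, IsRep (U.kind x) y := ⟨(U, x), hU, hx, rfl⟩
  set y := hex.choose with hy
  obtain ⟨hV, hyV, hk⟩ := hex.choose_spec
  rw [← hy] at hV hyV hk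
  obtain ⟨ρ₀, h2, h3⟩ := lk_both h0 h1 hBr hLK hU hV hx hyV hk.symm
  refine ⟨ρ₀, h2, fun ρ h4 h5 => ?_⟩
  obtain ⟨C, hC, h6⟩ := h3 ρ h4 h5
  refine ⟨C ^ 2, by positivity, ?_⟩
  filter_upwards [h6, ex_dat hV] with n h7 h8 s τ η₀ η₁ hη₀ hη₁
  have k0 := h8 0 (Or.inl rfl)
  have k1 := h8 (dir 0) (Or.inr ⟨0, rfl⟩)
  set r := ⌊ρ * n⌋₊
  have e0 : kv y.1 θ n 0 (y.1.pt n 0 y.2) r = y.1.ek θ n 0 k0.choose k0.choose_spec.choose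
      (y.1.pt n 0 y.2) r := by
    unfold kv
    rw [dif_pos k0]
  have e1 : kv y.1 θ n (dir 0) (y.1.pt n (dir 0) y.2) r = y.1.ek θ n (dir 0) k1.choose
      k1.choose_spec.choose (y.1.pt n (dir 0) y.2) r := by
    unfold kv
    rw [dif_pos k1]
  have s0 := k0.choose_spec.choose_spec
  have s1 := k1.choose_spec.choose_spec
  obtain ⟨a1, b1, c1⟩ := h7 0 0 τ k0.choose η₀ k0.choose_spec.choose hη₀ s0
  obtain ⟨a2, b2, c2⟩ := h7 (dir s) (dir 0) τ k1.choose η₁ k1.choose_spec.choose hη₁ s1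
  obtain ⟨-, -, c3⟩ := h7 0 (dir 0) τ k1.choose η₀ k1.choose_spec.choose hη₀ s1
  obtain ⟨-, -, c4⟩ := h7 (dir s) 0 τ k0.choose η₁ k0.choose_spec.choose hη₁ s0
  have f1 := pt_add U n (dir s) x
  have f2 := pt_add y.1 n (dir 0) y.2
  have g1 := par_dir (U.pt n 0 x) s
  have g2 := par_dir (y.1.pt n 0 y.2) 0
  rw [← f1] at g1
  rw [← f2] at g2
  have key := two_par (P := Even ((U.pt n 0 x).1 + (U.pt n 0 x).2))
    (Q := Even ((y.1.pt n 0 y.2).1 + (y.1.pt n 0 y.2).2)) a1 a2 b1 b2 c1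
    (fun h => c2 (by rw [g1, g2, h])) (fun h => c3 (by rw [g2, h])) (fun h => c4 (by
      rw [g1, h, not_not]))
  have hpos : 0 < kw θ n r y := by
    unfold kw
    rw [e0, e1]
    exact mul_pos b1 b2
  have hh : hK θ n r (U.kind x) = kw θ n r y := by
    unfold hK
    rw [dif_pos hex, if_pos hpos]
  refine ⟨mul_pos a1 a2, ?_⟩
  rw [hh]
  unfold kw
  rw [e0, e1]
  exact key

end Vale.Agent.P167.H718.Lam
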