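import Vale.Agent.P167.H718.Lam.Asm4
import Vale.Agent.P167.H318.LC.CntU

/-!
# P167, general `q`, block Q-LAM: assembly, part 5

Comparison of the products over all special points of a unit polygon (both parities) with helper318's
products `Pr` of the representatives; the products of the special polygons are bounded; the final bound.
-/

namespace Vale.Agent.P167.H718.Lam

open Finset Filter Topology Vale.Agent.P167.BR Vale.Agent.P167.FK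
open Vale.Agent.P167.E6 (IsPolygon Encloses dir)
open Vale.Agent.P167.H871 (Bd)
open Vale.Agent.P167.H825.Q (Bc)
open Vale.Agent.P167.H318.LC (Spec FW uSq uL uD0 uD4 uSq_ok uL_ok uD0_ok uD4_ok cnt_uni)

variable {θ : ℝ}

/-- **[LK], junction**: comparison of the local products at the junctions. -/
def LKT (θ : ℝ) : Prop :=
  ∀ (U U' : Uni), U.Ok → U'.Ok → U.IsDob → U'.IsDob →
    ∃ ρ₀ : ℝ, 0 < ρ₀ ∧ ∀ ρ : ℝ, 0 < ρ → ρ ≤ ρ₀ → ∃ C : ℝ, 0 < C ∧ ∀ᶠ n : ℕ in atTop,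
    ∀ (a a' : ℤ × ℤ) (τ τ' : ℕ → ℤ) (η η' : Cfg), U.St n a τ η → U'.St n a' τ' η' →
    (Even ((U.jn n a).1 + (U.jn n a).2) ↔ Even ((U'.jn n a').1 + (U'.jn n a').2)) →
    U.ek θ n a τ η (U.jn n a) ⌊ρ * n⌋₊ ≤ C * U'.ek θ n a' τ' η' (U'.jn n a') ⌊ρ * n⌋₊

/-- Two products of nonnegative numbers, same or exchanged parities. -/
theorem two_par' {a₀ a₁ b₀ b₁ C : ℝ} {P Q : Prop} (ha0 : 0 ≤ a₀) (ha1 : 0 ≤ a₁) (hb0 : 0 ≤ b₀)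
    (hb1 : 0 ≤ b₁) (h00 : (P ↔ Q) → a₀ ≤ C * b₀ ∧ b₀ ≤ C * a₀)
    (h11 : (P ↔ Q) → a₁ ≤ C * b₁ ∧ b₁ ≤ C * a₁) (h01 : (P ↔ ¬ Q) → a₀ ≤ C * b₁ ∧ b₁ ≤ C * a₀)
    (h10 : (P ↔ ¬ Q) → a₁ ≤ C * b₀ ∧ b₀ ≤ C * a₁) :
    a₀ * a₁ ≤ C ^ 2 * (b₀ * b₁) ∧ b₀ * b₁ ≤ C ^ 2 * (a₀ * a₁) := by
  by_cases h : P ↔ Q
  · obtain ⟨x1, x2⟩ := h00 h
    obtain ⟨y1, y2⟩ := h11 h
    constructor
    · calc a₀ * a₁ ≤ (C * b₀) * (C * b₁) := mul_le_mul x1 y1 ha1 (ha0.trans x1)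
        _ = _ := by ring
    · calc b₀ * b₁ ≤ (C * a₀) * (C * a₁) := mul_le_mul x2 y2 hb1 (hb0.trans x2)
        _ = _ := by ring
  · have h' : P ↔ ¬ Q := by tauto
    obtain ⟨x1, x2⟩ := h01 h'
    obtain ⟨y1, y2⟩ := h10 h'
    constructor
    · calc a₀ * a₁ ≤ (C * b₁) * (C * b₀) := mul_le_mul x1 y1 ha1 (ha0.trans x1)
        _ = _ := by ring
    · calc b₀ * b₁ ≤ (C * a₁) * (C * a₀) := mul_le_mul y2 x2 hb1 (hb0.trans y2)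
        _ = _ := by ring

open Classical in
/-- The factor of the junction. -/
noncomputable def hJ (θ : ℝ) (n r : ℕ) : ℝ :=
  if h : ∃ V : Uni, V.Ok ∧ V.IsDob then
    max (kv h.choose θ n 0 (h.choose.jn n 0) r * kv h.choose θ n (dir 0) (h.choose.jn n (dir 0)) r) 0
  else 1

theorem hJ_nn (θ : ℝ) (n r : ℕ) : 0 ≤ hJ θ n r := by
  unfold hJ
  split_ifs
  · exact le_max_right _ _
  · exact zero_le_one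

/-- **Comparison of the junction with the representative.** -/
theorem cmp_J (h0 : 0 < θ) (h1 : θ ≤ Real.pi / 3) (hBr : ∀ U : Uni, U.Ok → BrU θ U)
    (hLK : LKT θ) {U : Uni} (hU : U.Ok) (hd : U.IsDob) :
    ∃ ρ₀ : ℝ, 0 < ρ₀ ∧ ∀ ρ : ℝ, 0 < ρ → ρ ≤ ρ₀ → ∃ C : ℝ, 0 < C ∧ ∀ᶠ n : ℕ in atTop,
    ∀ (s : Fin 4) (τ : ℕ → ℤ) (η₀ η₁ : Cfg), U.St n 0 τ η₀ → U.St n (dir s) τ η₁ →
    0 ≤ U.ek θ n 0 τ η₀ (U.jn n 0) ⌊ρ * n⌋₊ * U.ek θ n (dir s) τ η₁ (U.jn n (dir s)) ⌊ρ * n⌋₊ ∧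
    U.ek θ n 0 τ η₀ (U.jn n 0) ⌊ρ * n⌋₊ * U.ek θ n (dir s) τ η₁ (U.jn n (dir s)) ⌊ρ * n⌋₊ ≤
      C * hJ θ n ⌊ρ * n⌋₊ ∧
    hJ θ n ⌊ρ * n⌋₊ ≤ C * (U.ek θ n 0 τ η₀ (U.jn n 0) ⌊ρ * n⌋₊ *
      U.ek θ n (dir s) τ η₁ (U.jn n (dir s)) ⌊ρ * n⌋₊) := by
  classical
  have hex : ∃ V : Uni, V.Ok ∧ V.IsDob := ⟨U, hU, hd⟩
  set V := hex.choose with hVd
  obtain ⟨hV, hVD⟩ := hex.choose_spec
  rw [← hVd] at hV hVD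
  obtain ⟨ρ₁, h1', h2⟩ := hLK U V hU hV hd hVD
  obtain ⟨ρ₂, h3, h4⟩ := hLK V U hV hU hVD hd
  obtain ⟨ρ₃, p1, p2⟩ := ek_pos h0 h1 hU (hBr U hU)
  obtain ⟨ρ₄, p3, p4⟩ := ek_pos h0 h1 hV (hBr V hV)
  refine ⟨min (min ρ₁ ρ₂) (min ρ₃ ρ₄), lt_min (lt_min h1' h3) (lt_min p1 p3), fun ρ h5 h6 => ?_⟩
  obtain ⟨C₁, hC₁, h7⟩ := h2 ρ h5 (h6.trans ((min_le_left _ _).trans (min_le_left _ _)))
  obtain ⟨C₂, hC₂, h8⟩ := h4 ρ h5 (h6.trans ((min_le_left _ _).trans (min_le_right _ _)))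
  have p5 := p2 ρ h5 (h6.trans ((min_le_right _ _).trans (min_le_left _ _)))
  have p6 := p4 ρ h5 (h6.trans ((min_le_right _ _).trans (min_le_right _ _)))
  refine ⟨(max C₁ C₂) ^ 2, pow_pos (lt_max_of_lt_left hC₁) _, ?_⟩
  filter_upwards [h7, h8, p5, p6, ex_dat hV] with n h9 h10 h11 h12 h13 s τ η₀ η₁ hη₀ hη₁
  have k0 := h13 0 (Or.inl rfl)
  have k1 := h13 (dir 0) (Or.inr ⟨0, rfl⟩)
  set r := ⌊ρ * n⌋₊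
  have e0 : kv V θ n 0 (V.jn n 0) r = V.ek θ n 0 k0.choose k0.choose_spec.choose
      (V.jn n 0) r := by
    unfold kv
    rw [dif_pos k0]
  have e1 : kv V θ n (dir 0) (V.jn n (dir 0)) r = V.ek θ n (dir 0) k1.choose
      k1.choose_spec.choose (V.jn n (dir 0)) r := by
    unfold kv
    rw [dif_pos k1]
  have s0 := k0.choose_spec.choose_spec
  have s1 := k1.choose_spec.choose_spec
  have a1 := (h11 0 τ η₀ hη₀).2 hd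
  have a2 := (h11 (dir s) τ η₁ hη₁).2 hd
  have b1 := (h12 0 _ _ s0).2 hVD
  have b2 := (h12 (dir 0) _ _ s1).2 hVD
  have cmp : ∀ {a a' : ℤ × ℤ} {τ τ' : ℕ → ℤ} {η η' : Cfg}, U.St n a τ η → V.St n a' τ' η' →
      0 ≤ U.ek θ n a τ η (U.jn n a) r → 0 ≤ V.ek θ n a' τ' η' (V.jn n a') r →
      (Even ((U.jn n a).1 + (U.jn n a).2) ↔ Even ((V.jn n a').1 + (V.jn n a').2)) →
      U.ek θ n a τ η (U.jn n a) r ≤ max C₁ C₂ * V.ek θ n a' τ' η' (V.jn n a') r ∧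
        V.ek θ n a' τ' η' (V.jn n a') r ≤ max C₁ C₂ * U.ek θ n a τ η (U.jn n a) r := by
    intro a a' τ τ' η η' hη hη' q1 q2 hp
    exact ⟨(h9 a a' τ τ' η η' hη hη' hp).trans (mul_le_mul_of_nonneg_right (le_max_left _ _) q2),
      (h10 a' a τ' τ η' η hη' hη hp.symm).trans (mul_le_mul_of_nonneg_right (le_max_right _ _) q1)⟩
  have f1 := jn_add U n (dir s)
  have f2 := jn_add V n (dir 0)
  have g1 := par_dir (U.jn n 0) s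
  have g2 := par_dir (V.jn n 0) 0
  rw [← f1] at g1
  rw [← f2] at g2
  have key := two_par' (P := Even ((U.jn n 0).1 + (U.jn n 0).2))
    (Q := Even ((V.jn n 0).1 + (V.jn n 0).2)) a1 a2 b1 b2 (cmp hη₀ s0 a1 b1)
    (fun h => cmp hη₁ s1 a2 b2 (by rw [g1, g2, h])) (fun h => cmp hη₀ s1 a1 b2 (by rw [g2, h]))
    (fun h => cmp hη₁ s0 a2 b1 (by rw [g1, h, not_not]))
  have hh : hJ θ n r = kv V θ n 0 (V.jn n 0) r * kv V θ n (dir 0) (V.jn n (dir 0)) r := by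
    unfold hJ
    rw [dif_pos hex, max_eq_left]
    rw [e0, e1]
    exact mul_nonneg b1 b2
  refine ⟨mul_nonneg a1 a2, ?_⟩
  rw [hh, e0, e1]
  exact key

/-- **Comparison of the products.** -/
theorem cmp_P (h0 : 0 < θ) (h1 : θ ≤ Real.pi / 3) (hBr : ∀ U : Uni, U.Ok → BrU θ U)
    (hLK : LK θ ((θ - Real.pi) / 2)) (hLT : LKT θ) {U : Uni} (hU : U.Ok) :
    ∃ ρ₀ : ℝ, 0 < ρ₀ ∧ ∀ ρ : ℝ, 0 < ρ → ρ ≤ ρ₀ → ∃ C : ℝ, 0 < C ∧ ∀ᶠ n : ℕ in atTop,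
    ∀ (s : Fin 4) (τ : ℕ → ℤ) (η₀ η₁ : Cfg), U.St n 0 τ η₀ → U.St n (dir s) τ η₁ →
    (0 ≤ U.eP θ n 0 τ η₀ ⌊ρ * n⌋₊ ∧ 0 ≤ U.eP θ n (dir s) τ η₁ ⌊ρ * n⌋₊) ∧
    U.eP θ n 0 τ η₀ ⌊ρ * n⌋₊ * U.eP θ n (dir s) τ η₁ ⌊ρ * n⌋₊ ≤
      C * H318.LC.Pr U (hK θ n ⌊ρ * n⌋₊) (hJ θ n ⌊ρ * n⌋₊) ∧
    H318.LC.Pr U (hK θ n ⌊ρ * n⌋₊) (hJ θ n ⌊ρ * n⌋₊) ≤
      C * (U.eP θ n 0 τ η₀ ⌊ρ * n⌋₊ * U.eP θ n (dir s) τ η₁ ⌊ρ * n⌋₊) := by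
  classical
  obtain ⟨ρ₁, r1, h2⟩ := fin_unif U.sp (fun x hx => cmp_K h0 h1 hBr hLK hU hx)
  have hJJ : ∃ ρ₀ : ℝ, 0 < ρ₀ ∧ ∀ ρ : ℝ, 0 < ρ → ρ ≤ ρ₀ → ∃ C : ℝ, 0 < C ∧ (U.IsDob →
      ∀ᶠ n : ℕ in atTop,
    ∀ (s : Fin 4) (τ : ℕ → ℤ) (η₀ η₁ : Cfg), U.St n 0 τ η₀ → U.St n (dir s) τ η₁ →
    0 ≤ U.ek θ n 0 τ η₀ (U.jn n 0) ⌊ρ * n⌋₊ * U.ek θ n (dir s) τ η₁ (U.jn n (dir s)) ⌊ρ * n⌋₊ ∧
    U.ek θ n 0 τ η₀ (U.jn n 0) ⌊ρ * n⌋₊ * U.ek θ n (dir s) τ η₁ (U.jn n (dir s)) ⌊ρ * n⌋₊ ≤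
      C * hJ θ n ⌊ρ * n⌋₊ ∧
    hJ θ n ⌊ρ * n⌋₊ ≤ C * (U.ek θ n 0 τ η₀ (U.jn n 0) ⌊ρ * n⌋₊ *
      U.ek θ n (dir s) τ η₁ (U.jn n (dir s)) ⌊ρ * n⌋₊)) := by
    by_cases hd : U.IsDob
    · obtain ⟨ρ₂, r2, h3⟩ := cmp_J h0 h1 hBr hLT hU hd
      refine ⟨ρ₂, r2, fun ρ x y => ?_⟩
      obtain ⟨C, hC, h4⟩ := h3 ρ x y
      exact ⟨C, hC, fun _ => h4⟩
    · exact ⟨1, one_pos, fun ρ _ _ => ⟨1, one_pos, fun h => absurd h hd⟩⟩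
  obtain ⟨ρ₂, r2, h3⟩ := hJJ
  obtain ⟨ρ₃, r3, h4⟩ := ek_pos h0 h1 hU (hBr U hU)
  refine ⟨min ρ₁ (min ρ₂ ρ₃), lt_min r1 (lt_min r2 r3), fun ρ h5 h6 => ?_⟩
  obtain ⟨C₁, hC₁, h7⟩ := h2 ρ h5 (h6.trans (min_le_left _ _))
  obtain ⟨C₂, hC₂, h8⟩ := h3 ρ h5 (h6.trans ((min_le_right _ _).trans (min_le_left _ _)))
  have h9 := h4 ρ h5 (h6.trans ((min_le_right _ _).trans (min_le_right _ _)))
  have hPC : 0 < ∏ x ∈ U.sp, C₁ x := prod_pos fun x _ => hC₁ x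
  have h8' : ∀ᶠ n : ℕ in atTop, U.IsDob →
      ∀ (s : Fin 4) (τ : ℕ → ℤ) (η₀ η₁ : Cfg), U.St n 0 τ η₀ → U.St n (dir s) τ η₁ →
    0 ≤ U.ek θ n 0 τ η₀ (U.jn n 0) ⌊ρ * n⌋₊ * U.ek θ n (dir s) τ η₁ (U.jn n (dir s)) ⌊ρ * n⌋₊ ∧
    U.ek θ n 0 τ η₀ (U.jn n 0) ⌊ρ * n⌋₊ * U.ek θ n (dir s) τ η₁ (U.jn n (dir s)) ⌊ρ * n⌋₊ ≤
      C₂ * hJ θ n ⌊ρ * n⌋₊ ∧
    hJ θ n ⌊ρ * n⌋₊ ≤ C₂ * (U.ek θ n 0 τ η₀ (U.jn n 0) ⌊ρ * n⌋₊ *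
      U.ek θ n (dir s) τ η₁ (U.jn n (dir s)) ⌊ρ * n⌋₊) := by
    by_cases hd : U.IsDob
    · filter_upwards [h8 hd] with n hn _
      exact hn
    · exact Eventually.of_forall fun n h => absurd h hd
  refine ⟨(∏ x ∈ U.sp, C₁ x) * C₂ + ∏ x ∈ U.sp, C₁ x, by positivity, ?_⟩
  filter_upwards [h7, h8', h9] with n a1 a2 a3 s τ η₀ η₁ hη₀ hη₁
  set r := ⌊ρ * n⌋₊
  have b0 := a3 0 τ η₀ hη₀
  have b1 := a3 (dir s) τ η₁ hη₁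
  have hP0 : 0 ≤ ∏ x ∈ U.sp, U.ek θ n 0 τ η₀ (U.pt n 0 x) r :=
    prod_nonneg fun x hx => (b0.1 x hx).le
  have hP1 : 0 ≤ ∏ x ∈ U.sp, U.ek θ n (dir s) τ η₁ (U.pt n (dir s) x) r :=
    prod_nonneg fun x hx => (b1.1 x hx).le
  have hKn : 0 ≤ ∏ x ∈ U.sp, hK θ n r (U.kind x) := prod_nonneg fun x _ => (hK_pos _ _ _ _).le
  have hle : (∏ x ∈ U.sp, U.ek θ n 0 τ η₀ (U.pt n 0 x) r) *
      ∏ x ∈ U.sp, U.ek θ n (dir s) τ η₁ (U.pt n (dir s) x) r ≤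
      (∏ x ∈ U.sp, C₁ x) * ∏ x ∈ U.sp, hK θ n r (U.kind x) := by
    rw [← prod_mul_distrib, ← prod_mul_distrib]
    exact prod_le_prod (fun x hx => (a1 x hx s τ η₀ η₁ hη₀ hη₁).1.le)
      fun x hx => (a1 x hx s τ η₀ η₁ hη₀ hη₁).2.1
  have hge : ∏ x ∈ U.sp, hK θ n r (U.kind x) ≤ (∏ x ∈ U.sp, C₁ x) *
      ((∏ x ∈ U.sp, U.ek θ n 0 τ η₀ (U.pt n 0 x) r) *
      ∏ x ∈ U.sp, U.ek θ n (dir s) τ η₁ (U.pt n (dir s) x) r) := by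
    rw [← prod_mul_distrib, ← prod_mul_distrib]
    exact prod_le_prod (fun x _ => (hK_pos _ _ _ _).le)
      fun x hx => (a1 x hx s τ η₀ η₁ hη₀ hη₁).2.2
  have hC1 : (∏ x ∈ U.sp, C₁ x) * C₂ ≤ (∏ x ∈ U.sp, C₁ x) * C₂ + ∏ x ∈ U.sp, C₁ x := by linarith
  have hC2 : (∏ x ∈ U.sp, C₁ x) ≤ (∏ x ∈ U.sp, C₁ x) * C₂ + ∏ x ∈ U.sp, C₁ x := by
    have : 0 < (∏ x ∈ U.sp, C₁ x) * C₂ := by positivity
    linarith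
  unfold Uni.eP H318.LC.Pr
  by_cases hd : U.IsDob
  · obtain ⟨c1, c2, c3⟩ := a2 hd s τ η₀ η₁ hη₀ hη₁
    have j0 := b0.2 hd
    have j1 := b1.2 hd
    simp only [if_pos hd]
    refine ⟨⟨mul_nonneg hP0 j0, mul_nonneg hP1 j1⟩, ?_, ?_⟩
    · calc _ = ((∏ x ∈ U.sp, U.ek θ n 0 τ η₀ (U.pt n 0 x) r) *
            ∏ x ∈ U.sp, U.ek θ n (dir s) τ η₁ (U.pt n (dir s) x) r) *
            (U.ek θ n 0 τ η₀ (U.jn n 0) r * U.ek θ n (dir s) τ η₁ (U.jn n (dir s)) r) := by ring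
        _ ≤ ((∏ x ∈ U.sp, C₁ x) * ∏ x ∈ U.sp, hK θ n r (U.kind x)) * (C₂ * hJ θ n r) :=
          mul_le_mul hle c2 c1 (mul_nonneg hPC.le hKn)
        _ = ((∏ x ∈ U.sp, C₁ x) * C₂) * ((∏ x ∈ U.sp, hK θ n r (U.kind x)) * hJ θ n r) := by ring
        _ ≤ _ := mul_le_mul_of_nonneg_right hC1 (mul_nonneg hKn (hJ_nn _ _ _))
    · calc (∏ x ∈ U.sp, hK θ n r (U.kind x)) * hJ θ n r ≤ ((∏ x ∈ U.sp, C₁ x) *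
            ((∏ x ∈ U.sp, U.ek θ n 0 τ η₀ (U.pt n 0 x) r) *
            ∏ x ∈ U.sp, U.ek θ n (dir s) τ η₁ (U.pt n (dir s) x) r)) *
            (C₂ * (U.ek θ n 0 τ η₀ (U.jn n 0) r * U.ek θ n (dir s) τ η₁ (U.jn n (dir s)) r)) :=
          mul_le_mul hge c3 (hJ_nn _ _ _) (mul_nonneg hPC.le (mul_nonneg hP0 hP1))
        _ = ((∏ x ∈ U.sp, C₁ x) * C₂) * (((∏ x ∈ U.sp, U.ek θ n 0 τ η₀ (U.pt n 0 x) r) *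
            U.ek θ n 0 τ η₀ (U.jn n 0) r) * ((∏ x ∈ U.sp, U.ek θ n (dir s) τ η₁
            (U.pt n (dir s) x) r) * U.ek θ n (dir s) τ η₁ (U.jn n (dir s)) r)) := by ring
        _ ≤ _ := mul_le_mul_of_nonneg_right hC1
          (mul_nonneg (mul_nonneg hP0 j0) (mul_nonneg hP1 j1))
  · simp only [if_neg hd, mul_one]
    exact ⟨⟨hP0, hP1⟩, hle.trans (mul_le_mul_of_nonneg_right hC2 hKn),
      hge.trans (mul_le_mul_of_nonneg_right hC2 (mul_nonneg hP0 hP1))⟩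

end Vale.Agent.P167.H718.Lam
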