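import Vale.Agent.P167.H718.Lam.Asm5

/-!
# P167, general `q`, block Q-LAM: assembly, part 6

The products of the special polygons are bounded from above and below; the bound
`∏ eT ≤ C * lam` for every admissible unit polygon.
-/

namespace Vale.Agent.P167.H718.Lam

open Finset Filter Topology Vale.Agent.P167.BR Vale.Agent.P167.FK
open Vale.Agent.P167.E6 (IsPolygon Encloses dir)
open Vale.Agent.P167.H871 (Bd)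
open Vale.Agent.P167.H825.Q (Bc)
open Vale.Agent.P167.H318.LC (Spec FW uSq uL uD0 uD4 uSq_ok uL_ok uD0_ok uD4_ok cnt_uni)

variable {θ : ℝ}

/-- Eventual bounds at all small radii. -/
def Ev (Φ : ℝ → ℝ → ℕ → Prop) : Prop := ∃ ρ₀ : ℝ, 0 < ρ₀ ∧ ∀ ρ : ℝ, 0 < ρ → ρ ≤ ρ₀ →
  ∃ C : ℝ, 0 < C ∧ ∀ᶠ n : ℕ in atTop, Φ ρ C n

/-- Monotone in the constant. -/
def Mono (Φ : ℝ → ℝ → ℕ → Prop) : Prop := ∀ ρ C C' n, 0 < C → C ≤ C' → Φ ρ C n → Φ ρ C' n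

theorem Ev.and {Φ Ψ : ℝ → ℝ → ℕ → Prop} (h : Ev Φ) (h' : Ev Ψ) (m : Mono Φ) (m' : Mono Ψ) :
    Ev fun ρ C n => Φ ρ C n ∧ Ψ ρ C n := by
  obtain ⟨ρ₁, h1, h2⟩ := h
  obtain ⟨ρ₂, h3, h4⟩ := h'
  refine ⟨min ρ₁ ρ₂, lt_min h1 h3, fun ρ h5 h6 => ?_⟩
  obtain ⟨C₁, c1, h7⟩ := h2 ρ h5 (h6.trans (min_le_left _ _))
  obtain ⟨C₂, c2, h8⟩ := h4 ρ h5 (h6.trans (min_le_right _ _))
  refine ⟨max C₁ C₂, lt_max_of_lt_left c1, ?_⟩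
  filter_upwards [h7, h8] with n h9 h10
  exact ⟨m _ _ _ _ c1 (le_max_left _ _) h9, m' _ _ _ _ c2 (le_max_right _ _) h10⟩

theorem Ev.all {ι : Type*} [Fintype ι] {Φ : ι → ℝ → ℝ → ℕ → Prop} (h : ∀ i, Ev (Φ i))
    (m : ∀ i, Mono (Φ i)) : Ev fun ρ C n => ∀ i, Φ i ρ C n := by
  classical
  obtain ⟨ρ₀, h1, h2⟩ := fin_unif (univ : Finset ι) (Φ := Φ) fun i _ => h i
  refine ⟨ρ₀, h1, fun ρ h3 h4 => ?_⟩
  obtain ⟨C, hC, h5⟩ := h2 ρ h3 h4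
  refine ⟨1 + ∑ i, C i, by
    have : 0 ≤ ∑ i, C i := sum_nonneg fun i _ => (hC i).le
    linarith, ?_⟩
  filter_upwards [h5] with n h6 i
  refine m i _ _ _ _ (hC i) ?_ (h6 i (mem_univ i))
  have := single_le_sum (f := C) (fun i _ => (hC i).le) (mem_univ i)
  linarith

/-- The upper bound. -/
def UpB (θ : ℝ) (V : Uni) (ρ C : ℝ) (n : ℕ) : Prop :=
  H318.LC.Pr V (hK θ n ⌊ρ * n⌋₊) (hJ θ n ⌊ρ * n⌋₊) ≤ C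

/-- The lower bound. -/
def LoB (θ : ℝ) (V : Uni) (ρ C : ℝ) (n : ℕ) : Prop :=
  C⁻¹ ≤ H318.LC.Pr V (hK θ n ⌊ρ * n⌋₊) (hJ θ n ⌊ρ * n⌋₊)

theorem mono_up (θ : ℝ) (V : Uni) : Mono (UpB θ V) := fun _ _ _ _ _ h h' => le_trans h' h

theorem mono_lo (θ : ℝ) (V : Uni) : Mono (LoB θ V) := fun _ _ _ _ hC h h' =>
  (inv_anti₀ hC h).trans h'

/-- Data for both parities. -/
theorem ex_two {V : Uni} (hV : V.Ok) : ∀ᶠ n : ℕ in atTop, 0 < n ∧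
    ∃ τ η₀ η₁, V.St n 0 τ η₀ ∧ V.St n (dir 0) τ η₁ := by
  filter_upwards [V.ex_st hV, eventually_gt_atTop 0] with n h hn
  obtain ⟨τ, hτ⟩ := V.ex_bd hV hn
  obtain ⟨η₀, h0⟩ := h 0 τ (Or.inl rfl) hτ
  obtain ⟨η₁, h1⟩ := h (dir 0) τ (Or.inr ⟨0, rfl⟩) hτ
  exact ⟨hn, τ, η₀, η₁, h0, h1⟩

section

variable (h0 : 0 < θ) (h1 : θ ≤ Real.pi / 3) (hBr : ∀ U : Uni, U.Ok → BrU θ U)
  (hLK : LK θ ((θ - Real.pi) / 2)) (hLT : LKT θ)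
include h0 h1 hBr hLK hLT

theorem ev_up {V : Uni} (hV : V.Ok) (hL : LU θ V) : Ev (UpB θ V) := by
  obtain ⟨ρ₁, a1, a2⟩ := cmp_P h0 h1 hBr hLK hLT hV
  obtain ⟨ρ₂, b1, b2⟩ := hL
  refine ⟨min ρ₁ ρ₂, lt_min a1 b1, fun ρ h5 h6 => ?_⟩
  obtain ⟨C, hC, a3⟩ := a2 ρ h5 (h6.trans (min_le_left _ _))
  obtain ⟨c, hc, b3⟩ := b2 ρ h5 (h6.trans (min_le_right _ _))
  refine ⟨C * (c⁻¹ * c⁻¹), by positivity, ?_⟩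
  filter_upwards [a3, b3, ex_two hV] with n a4 b4 h7
  obtain ⟨hn, τ, η₀, η₁, hη₀, hη₁⟩ := h7
  obtain ⟨⟨c0, c1⟩, -, c2⟩ := a4 0 τ η₀ η₁ hη₀ hη₁
  have d0 := b4 0 τ η₀ hη₀
  have d1 := b4 (dir 0) τ η₁ hη₁
  obtain ⟨e1, e2, e3⟩ := eXU_dir hV hn h0 h1 hη₀ hη₁
  refine le_trans c2 (mul_le_mul_of_nonneg_left ?_ hC.le)
  have f0 : V.eP θ n 0 τ η₀ ⌊ρ * n⌋₊ ≤ c⁻¹ * V.eXU θ n 0 τ η₀ := by
    rw [inv_mul_eq_div, le_div_iff₀ hc]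
    linarith
  have f1 : V.eP θ n (dir 0) τ η₁ ⌊ρ * n⌋₊ ≤ c⁻¹ * V.eXU θ n (dir 0) τ η₁ := by
    rw [inv_mul_eq_div, le_div_iff₀ hc]
    linarith
  calc _ ≤ (c⁻¹ * V.eXU θ n 0 τ η₀) * (c⁻¹ * V.eXU θ n (dir 0) τ η₁) :=
        mul_le_mul f0 f1 c1 (c0.trans f0)
    _ = c⁻¹ * c⁻¹ * (V.eXU θ n 0 τ η₀ * V.eXU θ n (dir 0) τ η₁) := by ring
    _ = _ := by rw [e1, e2, inv_mul_cancel₀ e3.ne', mul_one]

theorem ev_lo {V : Uni} (hV : V.Ok) (hU : UU θ V) : Ev (LoB θ V) := by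
  obtain ⟨ρ₁, a1, a2⟩ := cmp_P h0 h1 hBr hLK hLT hV
  obtain ⟨ρ₂, b1, b2⟩ := hU
  refine ⟨min ρ₁ ρ₂, lt_min a1 b1, fun ρ h5 h6 => ?_⟩
  obtain ⟨C, hC, a3⟩ := a2 ρ h5 (h6.trans (min_le_left _ _))
  obtain ⟨c, hc, b3⟩ := b2 ρ h5 (h6.trans (min_le_right _ _))
  refine ⟨C * (c * c), by positivity, ?_⟩
  filter_upwards [a3, b3, ex_two hV] with n a4 b4 h7
  obtain ⟨hn, τ, η₀, η₁, hη₀, hη₁⟩ := h7
  obtain ⟨⟨c0, c1⟩, c2, -⟩ := a4 0 τ η₀ η₁ hη₀ hη₁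
  have d0 := (le_abs_self _).trans (b4 0 τ η₀ hη₀)
  have d1 := (le_abs_self _).trans (b4 (dir 0) τ η₁ hη₁)
  obtain ⟨e1, e2, e3⟩ := eXU_dir hV hn h0 h1 hη₀ hη₁
  have e4 : 0 < V.eXU θ n 0 τ η₀ := by rw [e2]; exact inv_pos.2 e3
  have e5 : 0 < V.eXU θ n (dir 0) τ η₁ := by rw [e1]; exact e3
  have key : 1 ≤ (C * (c * c)) * H318.LC.Pr V (hK θ n ⌊ρ * n⌋₊) (hJ θ n ⌊ρ * n⌋₊) := by
    calc (1 : ℝ) = V.eXU θ n 0 τ η₀ * V.eXU θ n (dir 0) τ η₁ := by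
          rw [e1, e2, inv_mul_cancel₀ e3.ne']
      _ ≤ (c * V.eP θ n 0 τ η₀ ⌊ρ * n⌋₊) * (c * V.eP θ n (dir 0) τ η₁ ⌊ρ * n⌋₊) :=
          mul_le_mul d0 d1 e5.le (e4.le.trans d0)
      _ = c * c * (V.eP θ n 0 τ η₀ ⌊ρ * n⌋₊ * V.eP θ n (dir 0) τ η₁ ⌊ρ * n⌋₊) := by ring
      _ ≤ c * c * (C * H318.LC.Pr V (hK θ n ⌊ρ * n⌋₊) (hJ θ n ⌊ρ * n⌋₊)) :=
          mul_le_mul_of_nonneg_left c2 (by positivity)
      _ = _ := by ring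
  unfold LoB
  rw [inv_le_iff_one_le_mul₀ (by positivity), mul_comm]
  exact key

/-- The boundary conditions of the special polygons. -/
theorem ev_spec (hUU : ∀ U : Uni, U.Ok → UU θ U) (hSq : ∀ bc, FW bc → ∀ s, LU θ (uSq bc s))
    (hL : ∀ bc, FW bc → ∀ d, LU θ (uL bc d)) (hD0 : LU θ uD0) (hD4 : LU θ uD4) :
    Ev fun ρ C n => Spec C (hK θ n ⌊ρ * n⌋₊) (hJ θ n ⌊ρ * n⌋₊) := by
  -- the two boundary conditions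
  let b : Bool → Bc := fun t => if t then .free else .wired
  have hb : ∀ t, FW (b t) := fun t => by
    cases t
    · exact Or.inr rfl
    · exact Or.inl rfl
  have hb' : ∀ bc, FW bc → ∃ t, bc = b t := fun bc h => by
    rcases h with rfl | rfl
    · exact ⟨true, rfl⟩
    · exact ⟨false, rfl⟩
  have s1 : Ev fun ρ C n => ∀ i : Bool × Fin 4, UpB θ (uSq (b i.1) i.2) ρ C n :=
    Ev.all (fun i => ev_up h0 h1 hBr hLK hLT (uSq_ok (hb _) _) (hSq _ (hb _) _)) fun i => mono_up _ _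
  have s2 : Ev fun ρ C n => ∀ i : Bool × Fin 4, LoB θ (uSq (b i.1) i.2) ρ C n :=
    Ev.all (fun i => ev_lo h0 h1 hBr hLK hLT (uSq_ok (hb _) _) (hUU _ (uSq_ok (hb _) _)))
      fun i => mono_lo _ _
  have s3 : Ev fun ρ C n => ∀ i : Bool × Fin 4, UpB θ (uL (b i.1) i.2) ρ C n :=
    Ev.all (fun i => ev_up h0 h1 hBr hLK hLT (uL_ok (hb _) _) (hL _ (hb _) _)) fun i => mono_up _ _
  have s4 := ev_up h0 h1 hBr hLK hLT uD0_ok hD0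
  have s5 := ev_lo h0 h1 hBr hLK hLT uD0_ok (hUU _ uD0_ok)
  have s6 := ev_up h0 h1 hBr hLK hLT uD4_ok hD4
  have s7 := ev_lo h0 h1 hBr hLK hLT uD4_ok (hUU _ uD4_ok)
  have m1 : Mono fun ρ C n => ∀ i : Bool × Fin 4, UpB θ (uSq (b i.1) i.2) ρ C n :=
    fun ρ C C' n h h' h'' i => mono_up _ _ ρ C C' n h h' (h'' i)
  have m2 : Mono fun ρ C n => ∀ i : Bool × Fin 4, LoB θ (uSq (b i.1) i.2) ρ C n :=
    fun ρ C C' n h h' h'' i => mono_lo _ _ ρ C C' n h h' (h'' i)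
  have m3 : Mono fun ρ C n => ∀ i : Bool × Fin 4, UpB θ (uL (b i.1) i.2) ρ C n :=
    fun ρ C C' n h h' h'' i => mono_up _ _ ρ C C' n h h' (h'' i)
  have mand : ∀ {Φ Ψ : ℝ → ℝ → ℕ → Prop}, Mono Φ → Mono Ψ → Mono fun ρ C n => Φ ρ C n ∧ Ψ ρ C n :=
    fun m m' ρ C C' n h h' h'' => ⟨m _ _ _ _ h h' h''.1, m' _ _ _ _ h h' h''.2⟩
  have t1 := s1.and s2 m1 m2
  have t2 := t1.and s3 (mand m1 m2) m3
  have t3 := t2.and s4 (mand (mand m1 m2) m3) (mono_up _ _)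
  have t4 := t3.and s5 (mand (mand (mand m1 m2) m3) (mono_up _ _)) (mono_lo _ _)
  have t5 := t4.and s6 (mand (mand (mand (mand m1 m2) m3) (mono_up _ _)) (mono_lo _ _))
    (mono_up _ _)
  have t6 := t5.and s7 (mand (mand (mand (mand (mand m1 m2) m3) (mono_up _ _)) (mono_lo _ _))
    (mono_up _ _)) (mono_lo _ _)
  obtain ⟨ρ₀, r0, h2⟩ := t6
  refine ⟨ρ₀, r0, fun ρ h3 h4 => ?_⟩
  obtain ⟨C, hC, h5⟩ := h2 ρ h3 h4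
  refine ⟨max C 1, lt_max_of_lt_left hC, ?_⟩
  filter_upwards [h5] with n h6
  obtain ⟨⟨⟨⟨⟨⟨u1, u2⟩, u3⟩, u4⟩, u5⟩, u6⟩, u7⟩ := h6
  have hm : C ≤ max C 1 := le_max_left _ _
  refine ⟨le_max_right _ _, fun κ => (hK_pos _ _ _ _).le, hJ_nn _ _ _, ?_, ?_, ?_, ?_, ?_, ?_, ?_⟩
  · intro bc hbc s
    obtain ⟨t, rfl⟩ := hb' bc hbc
    exact mono_lo _ _ ρ _ _ n hC hm (u2 (t, s))
  · intro bc hbc s
    obtain ⟨t, rfl⟩ := hb' bc hbc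
    exact mono_up _ _ ρ _ _ n hC hm (u1 (t, s))
  · intro bc hbc s
    obtain ⟨t, rfl⟩ := hb' bc hbc
    exact mono_up _ _ ρ _ _ n hC hm (u3 (t, s))
  · exact mono_lo _ _ ρ _ _ n hC hm u5
  · exact mono_up _ _ ρ _ _ n hC hm u4
  · exact mono_lo _ _ ρ _ _ n hC hm u7
  · exact mono_up _ _ ρ _ _ n hC hm u6

/-- **The products of the local expectations are at most `C * lam`.** -/
theorem eP_le_lam (hUU : ∀ U : Uni, U.Ok → UU θ U) (hSq : ∀ bc, FW bc → ∀ s, LU θ (uSq bc s))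
    (hL : ∀ bc, FW bc → ∀ d, LU θ (uL bc d)) (hD0 : LU θ uD0) (hD4 : LU θ uD4) {U : Uni}
    (hU : U.Ok) : ∃ ρ₀ : ℝ, 0 < ρ₀ ∧ ∀ ρ : ℝ, 0 < ρ → ρ ≤ ρ₀ → ∃ C : ℝ, 0 < C ∧
      ∀ᶠ n : ℕ in atTop, ∀ (s : Fin 4) (τ : ℕ → ℤ) (η : Cfg), U.St n (dir s) τ η →
        U.eP θ n (dir s) τ η ⌊ρ * n⌋₊ ≤
          C * lam θ ((θ - Real.pi) / 2) (U.q n) (U.D n) (U.k n) (dir s) := by
  obtain ⟨m, hm⟩ := cnt_uni hU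
  obtain ⟨ρ₁, a1, a2⟩ := cmp_P h0 h1 hBr hLK hLT hU
  obtain ⟨ρ₂, b1, b2⟩ := hUU U hU
  obtain ⟨ρ₃, c1, c2⟩ := ev_spec h0 h1 hBr hLK hLT hUU hSq hL hD0 hD4
  refine ⟨min ρ₁ (min ρ₂ ρ₃), lt_min a1 (lt_min b1 c1), fun ρ h5 h6 => ?_⟩
  obtain ⟨C₁, hC₁, a3⟩ := a2 ρ h5 (h6.trans (min_le_left _ _))
  obtain ⟨C₂, hC₂, b3⟩ := b2 ρ h5 (h6.trans ((min_le_right _ _).trans (min_le_left _ _)))
  obtain ⟨C₃, hC₃, c3⟩ := c2 ρ h5 (h6.trans ((min_le_right _ _).trans (min_le_right _ _)))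
  refine ⟨C₁ * C₃ ^ m * C₂, by positivity, ?_⟩
  filter_upwards [a3, b3, c3, U.ex_st hU, eventually_gt_atTop 0] with n a4 b4 c4 h7 hn s τ η hη
  obtain ⟨η₀, hη₀⟩ := h7 0 τ (Or.inl rfl) hη.bd
  obtain ⟨⟨d0, d1⟩, d2, -⟩ := a4 s τ η₀ η hη₀ hη
  have d3 := hm _ _ _ c4
  obtain ⟨e1, e2, e3⟩ := eXU_dir hU hn h0 h1 hη₀ hη
  have d4 := (le_abs_self _).trans (b4 0 τ η₀ hη₀)
  rw [e2] at d4
  set l := lam θ ((θ - Real.pi) / 2) (U.q n) (U.D n) (U.k n) (dir s) with hl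
  set P0 := U.eP θ n 0 τ η₀ ⌊ρ * n⌋₊
  set P1 := U.eP θ n (dir s) τ η ⌊ρ * n⌋₊
  -- `1 / l ≤ C₂ P0`, `P0 P1 ≤ C₁ C₃ ^ m`
  have d5 : P0 * P1 ≤ C₁ * C₃ ^ m := d2.trans (mul_le_mul_of_nonneg_left d3 hC₁.le)
  calc P1 = l * (l⁻¹ * P1) := by rw [mul_inv_cancel_left₀ e3.ne']
    _ ≤ l * (C₂ * P0 * P1) := mul_le_mul_of_nonneg_left (mul_le_mul_of_nonneg_right d4 d1) e3.le
    _ = l * (C₂ * (P0 * P1)) := by ring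
    _ ≤ l * (C₂ * (C₁ * C₃ ^ m)) :=
        mul_le_mul_of_nonneg_left (mul_le_mul_of_nonneg_left d5 hC₂.le) e3.le
    _ = _ := by ring

end

end Vale.Agent.P167.H718.Lam
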