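import Vale.Agent.P167.H718.Lam.Asm6
import Vale.Agent.P167.H318.LC.Sp

/-!
# P167, general `q`, block Q-LAM: assembly, part 7

The lower bounds for the special polygons from `L_pos` and `L_dob`; the bound of the products in terms
of `Pg` (`LamP`).
-/

namespace Vale.Agent.P167.H718.Lam

open Finset Filter Topology Vale.Agent.P167.BR Vale.Agent.P167.FK
open Vale.Agent.P167.E6 (IsPolygon Encloses dir)
open Vale.Agent.P167.H871 (Bd)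
open Vale.Agent.P167.H825.Q (Bc)
open Vale.Agent.P167.H318.LC (Spec FW uSq uL uD0 uD4 uSq_ok uL_ok uD0_ok uD4_ok cnt_uni HB K_sq K_l
  sqP sqS lP lS bqP bqS)

variable {θ : ℝ}

theorem notDob_sq {bc : Bc} (h : FW bc) (s : Fin 4) : ¬ (uSq bc s).IsDob := by
  rcases h with rfl | rfl <;> exact id

theorem notDob_l {bc : Bc} (h : FW bc) (s : Fin 4) : ¬ (uL bc s).IsDob := by
  rcases h with rfl | rfl <;> exact id

theorem t_zero {U : Uni} (h : U.tp = 0) (n : ℕ) : U.t n = 0 := by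
  unfold Uni.t
  rw [h]
  simp

/-- The lower bound from `L_pos`. -/
theorem lU_pos (hc : 0 < Real.cos θ) {U : Uni} (hU : U.Ok) (hB : BrU θ U) (h : L_pos θ)
    (hd : ¬ U.IsDob) (hK : ∀ᶠ n : ℕ in atTop, ∀ (a : ℤ × ℤ) (τ : ℕ → ℤ) (η : Cfg), U.St n a τ η →
      ∀ x y : ℕ, x ≤ y → y < U.l * n → -1 ≤ τ y - τ x ∧ τ y - τ x ≤ 3) : LU θ U := by
  classical
  obtain ⟨σ, R, hσ, hB⟩ := hB
  obtain ⟨ρ₀, hρ₀, h⟩ := h σ R hσ
  refine ⟨ρ₀, hρ₀, fun ρ h0 h1 => ?_⟩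
  obtain ⟨c, n₀, hc0, h⟩ := h ρ h0 h1
  refine ⟨c, hc0, ?_⟩
  filter_upwards [hB, hK, eventually_ge_atTop n₀, eventually_gt_atTop 0] with n h2 hK' h3 hn a τ η hη
  obtain ⟨η', h4, h5, h6, -, h7⟩ := h2 a τ η hη
  have h8 := h n h3 _ h5 h6 (U.k_fw hd n) (hK' a τ η hη)
  rw [eXU_pg hU hn hc h5.kle hη h4] at h8
  rw [← floor_cast h0.le, eP_pg hU hn hc h5.kle hη h4 (by convert h7)] at h8
  exact h8

theorem lU_sq (hc : 0 < Real.cos θ) (hBr : ∀ U : Uni, U.Ok → BrU θ U) (h : L_pos θ) {bc : Bc}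
    (hb : FW bc) (s : Fin 4) : LU θ (uSq bc s) := by
  refine lU_pos hc (uSq_ok hb s) (hBr _ (uSq_ok hb s)) h (notDob_sq hb s) ?_
  filter_upwards [eventually_gt_atTop 0] with n hn a τ η hη x y hxy hy
  have ht : (uSq bc s).t n = 0 := t_zero rfl n
  have h1 : HB (sqP s) sqS n 0 a ((uSq bc s).k n) τ η := by
    have h2 := bd_add hη.bd a
    have h3 : (uSq bc s).q n = Enl.qN (sqP s) n 0 := by
      show Enl.qN (sqP s) n ((uSq bc s).t n) = _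
      rw [ht]
    rw [h3] at h2
    exact h2
  have h4 := K_sq hn h1 hxy hy
  omega

theorem lU_l (hc : 0 < Real.cos θ) (hBr : ∀ U : Uni, U.Ok → BrU θ U) (h : L_pos θ) {bc : Bc}
    (hb : FW bc) (s : Fin 4) : LU θ (uL bc s) := by
  refine lU_pos hc (uL_ok hb s) (hBr _ (uL_ok hb s)) h (notDob_l hb s) ?_
  filter_upwards [eventually_gt_atTop 0] with n hn a τ η hη x y hxy hy
  have ht : (uL bc s).t n = 0 := t_zero rfl n
  have h1 : HB (lP s) (lS s) n 0 a ((uL bc s).k n) τ η := by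
    have h2 := bd_add hη.bd a
    have h3 : (uL bc s).q n = Enl.qN (lP s) n 0 := by
      show Enl.qN (lP s) n ((uL bc s).t n) = _
      rw [ht]
    rw [h3] at h2
    exact h2
  exact K_l hn h1 hxy hy

/-- The lower bound from `L_dob`. -/
theorem lU_dob (hc : 0 < Real.cos θ) {U : Uni} (hU : U.Ok) (hB : BrU θ U) (h : L_dob θ)
    (i : Fin 2) (hl : U.l = 8) (hpg : ∀ (n : ℕ) (a : ℤ × ℤ) (τ : ℕ → ℤ) (η : Cfg),
      U.pg n a τ η = enP (dP i) dS n (U.t n) a (U.k n) τ η)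
    (hk : ∀ᶠ n : ℕ in atTop, 0 < U.t n ∧ ∃ s' : ℕ, 0 < s' ∧ s' < n ∧
      U.k n + U.t n = (![1, 7] i) * n + s') : LU θ U := by
  classical
  obtain ⟨σ, R, hσ, hB⟩ := hB
  obtain ⟨ρ₀, hρ₀, h⟩ := h σ R hσ
  refine ⟨ρ₀, hρ₀, fun ρ h0 h1 => ?_⟩
  obtain ⟨c, n₀, hc0, h⟩ := h ρ h0 h1
  refine ⟨c, hc0, ?_⟩
  filter_upwards [hB, hk, eventually_ge_atTop n₀, eventually_gt_atTop 0] with n h2 hk' h3 hn a τ η hη
  obtain ⟨η', h4, h5, h6, -, h7⟩ := h2 a τ η hη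
  obtain ⟨t0, s', k1, k2, k3⟩ := hk'
  have h8 := h n h3 i (U.t n) s' a (U.k n) τ η' t0 (U.t_lt hU hn) k1 k2 k3
    (by rw [← hpg]; exact h5)
  rw [← hpg] at h8
  rw [eXU_pg hU hn hc h5.kle hη h4] at h8
  rw [← floor_cast h0.le, eP_pg hU hn hc h5.kle hη h4 (by convert h7)] at h8
  exact h8

theorem dP_zero : dP 0 = bqP 0 := by
  funext x
  rfl

theorem dP_one : dP 1 = bqP 1 := by
  funext x
  rfl

theorem half_pos : ∀ᶠ n : ℕ in atTop, 0 < ⌊(1 / 2 : ℝ) * n⌋₊ ∧ ⌊(1 / 2 : ℝ) * n⌋₊ < n := by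
  filter_upwards [eventually_ge_atTop 2] with n hn
  have hn' : (2 : ℝ) ≤ n := by exact_mod_cast hn
  constructor
  · rw [Nat.floor_pos]
    linarith
  · rw [Nat.floor_lt (by positivity)]
    linarith

theorem lU_D0 (hc : 0 < Real.cos θ) (hBr : ∀ U : Uni, U.Ok → BrU θ U) (h : L_dob θ) :
    LU θ uD0 := by
  refine lU_dob hc uD0_ok (hBr _ uD0_ok) h 0 rfl (fun n a τ η => ?_) ?_
  · rfl
  · filter_upwards [half_pos] with n hn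
    refine ⟨hn.1, ⌊(1 / 2 : ℝ) * n⌋₊, hn.1, hn.2, ?_⟩
    show Enl.kOf 8 n ⌊(1 / 2 : ℝ) * n⌋₊ 1 ⌊(1 / 2 : ℝ) * n⌋₊ + ⌊(1 / 2 : ℝ) * n⌋₊ = 1 * n + _
    unfold Enl.kOf
    rw [if_pos (by omega)]
    omega

theorem lU_D4 (hc : 0 < Real.cos θ) (hBr : ∀ U : Uni, U.Ok → BrU θ U) (h : L_dob θ) :
    LU θ uD4 := by
  refine lU_dob hc uD4_ok (hBr _ uD4_ok) h 1 rfl (fun n a τ η => ?_) ?_
  · rfl
  · filter_upwards [half_pos] with n hn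
    refine ⟨hn.1, ⌊(1 / 2 : ℝ) * n⌋₊, hn.1, hn.2, ?_⟩
    show Enl.kOf 8 n ⌊(1 / 2 : ℝ) * n⌋₊ 7 ⌊(1 / 2 : ℝ) * n⌋₊ + ⌊(1 / 2 : ℝ) * n⌋₊ = 7 * n + _
    unfold Enl.kOf
    rw [if_pos (by omega)]
    omega

/-- **[LamP]** The products of the local expectations, `Pg` form. -/
def LamP (θ : ℝ) (U : Uni) : Prop := ∃ ρ₀ : ℝ, 0 < ρ₀ ∧ ∀ ρ : ℝ, 0 < ρ → ρ ≤ ρ₀ →
  ∃ C : ℝ, 0 < C ∧ ∀ᶠ n : ℕ in atTop, ∀ (s : Fin 4) (τ : ℕ → ℤ) (η : Cfg), U.St n (dir s) τ η →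
    ∏ j ∈ (U.pg n (dir s) τ η).sp, (U.pg n (dir s) τ η).eT θ j ⌊ρ * n⌋ ≤
      C * lam θ ((θ - Real.pi) / 2) (U.q n) (U.D n) (U.k n) (dir s)

/-- **The main result of the block**, from the literal inputs. -/
theorem lamP_of (h0 : 0 < θ) (h1 : θ ≤ Real.pi / 3) (hBr : ∀ U : Uni, U.Ok → BrU θ U)
    (hLK : LK θ ((θ - Real.pi) / 2)) (hLT : LKT θ) (hUS : U_S θ) (hLP : L_pos θ) (hLD : L_dob θ)
    {U : Uni} (hU : U.Ok) : LamP θ U := by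
  classical
  have hc : 0 < Real.cos θ := Real.cos_pos_of_mem_Ioo ⟨by linarith [Real.pi_pos], by
    linarith [Real.pi_pos]⟩
  obtain ⟨ρ₀, h2, h3⟩ := eP_le_lam h0 h1 hBr hLK hLT (fun V hV => uU_of hc hV (hBr V hV) hUS)
    (fun bc hb s => lU_sq hc hBr hLP hb s) (fun bc hb s => lU_l hc hBr hLP hb s)
    (lU_D0 hc hBr hLD) (lU_D4 hc hBr hLD) hU
  obtain ⟨σ, R, hσ, hB⟩ := hBr U hU
  refine ⟨ρ₀, h2, fun ρ h4 h5 => ?_⟩
  obtain ⟨C, hC, h6⟩ := h3 ρ h4 h5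
  refine ⟨C, hC, ?_⟩
  filter_upwards [h6, hB, eventually_gt_atTop 0] with n h7 h8 hn s τ η hη
  obtain ⟨η', h9, h10, h11, -, h12⟩ := h8 (dir s) τ η hη
  have h13 := h7 s τ η hη
  have e : ∏ j ∈ (U.pg n (dir s) τ η).sp, (U.pg n (dir s) τ η).eT θ j ((⌊ρ * n⌋₊ : ℕ) : ℤ) =
      U.eP θ n (dir s) τ η ⌊ρ * n⌋₊ := by
    refine eP_pg hU hn hc h10.kle hη hη fun f => ?_
    have h15 : (U.pg n (dir s) τ η).sp = (U.pg n (dir s) τ η').sp := rfl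
    rw [h15, h12 f]
  rw [← e, floor_cast h4.le] at h13
  exact h13

end Vale.Agent.P167.H718.Lam
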