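import Vale.Agent.P167.H718.Lam.Asm7
import Vale.Agent.P167.H135.Br.Fin
import Vale.Agent.P167.H975.LkP

/-!
# P167, general `q`, block Q-LAM: assembly, part 8

`LamP` from the upper bound `U_S` and the lower bounds `L_pos`, `L_dob`.
-/

namespace Vale.Agent.P167.H718.Lam

open Finset Filter Topology Vale.Agent.P167.BR Vale.Agent.P167.FK
open Vale.Agent.P167.H192.Q (SRSW)

variable {θ : ℝ}

/-- The comparison of the local products at the junctions. -/
theorem lkt' (h0 : 0 < θ) (h1 : θ ≤ Real.pi / 3) (hR : RSW (2 * Real.cos θ))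
    (hSR : SRSW (2 * Real.cos θ)) : LKT θ := fun U U' hU hU' hd hd' =>
  H975.lkt h0 h1 rfl hR hSR U U' hU hU' hd hd'

/-- The bounds of the products. -/
theorem lamP_of' (h0 : 0 < θ) (h1 : θ ≤ Real.pi / 3) (hR : RSW (2 * Real.cos θ))
    (hSR : SRSW (2 * Real.cos θ)) (hS : U_S θ) (hP : L_pos θ) (hD : L_dob θ) {U : Uni}
    (hU : U.Ok) : LamP θ U :=
  lamP_of h0 h1 (fun _ h => H135.Br.brU θ h) (H975.lk h0 h1 rfl hR hSR) (lkt' h0 h1 hR hSR) hS hP hD hU

end Vale.Agent.P167.H718.Lam
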