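import Vale.Agent.P167.H718.Lam.Asm8
import Vale.Agent.P167.H945.L.Pos
import Vale.Agent.P167.H685.LD.DobF

/-!
# P167, general `q`, block Q-LAM: assembly, part 9

`LamP` from the upper bound `U_S`.
-/

namespace Vale.Agent.P167.H718.Lam

open Vale.Agent.P167.FK
open Vale.Agent.P167.H192.Q (SRSW)

variable {θ : ℝ}

/-- The bounds of the products. -/
theorem lamP_us (h0 : 0 < θ) (h1 : θ ≤ Real.pi / 3) (hR : RSW (2 * Real.cos θ))
    (hSR : SRSW (2 * Real.cos θ)) (hS : U_S θ) {U : Uni} (hU : U.Ok) : LamP θ U :=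
  lamP_of' h0 h1 hR hSR hS (H945.L.l_pos h0 h1 hR hSR) (H685.LD.l_dobF h0 h1 hR hSR) hU

end Vale.Agent.P167.H718.Lam
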