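import Vale.Agent.P167.H718.Lam.Asm9
import Vale.Agent.P167.H167.Q.US

/-!
# P167, general `q`, block Q-LAM: the products of the local expectations are bounded by `lam`
-/

namespace Vale.Agent.P167.H718.Lam

open Vale.Agent.P167.FK
open Vale.Agent.P167.H192.Q (SRSW)

variable {θ : ℝ}

/-- **[LamP]** -/
theorem lamP (h0 : 0 < θ) (h1 : θ ≤ Real.pi / 3) (hR : RSW (2 * Real.cos θ))
    (hSR : SRSW (2 * Real.cos θ)) : ∀ U : Uni, U.Ok → LamP θ U :=
  fun _ hU => lamP_us h0 h1 hR hSR (H167.Q.u_S h0 h1 hR hSR) hU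

end Vale.Agent.P167.H718.Lam
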